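import Vale.Agent.P287D.Sc.St
import Vale.Agent.P287D.Va.Des
import Vale.Agent.P287D.Pr.NegA
import Vale.Agent.P287D.Ba.Hy
import Vale.Agent.P287D.Ba.Mod
import Vale.Agent.P287D.Gm.Ffs
import Vale.Agent.P287D.Pb.Gd

/-!
# P287D: vertical principal b-divisors; prime divisors over prime divisors of the base
-/

open Set

noncomputable section

namespace Vale.Agent.P287D

variable {K K' : Type} [Field K] [Algebra ℂ K] [Field K'] [Algebra ℂ K'] {n m : ℕ}
  {φ : K →+* K'} {B : BD K} {Y : BD K'}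

/-- a prime divisor of `V Λ` is determined by its centre -/
theorem On.eq_of_cle (hK : FF K (n + 1)) (hB : Smp B) (hb : Big B) {Q R : Pl K} (hQ : On n B Q)
    (h : CLe B Q R) : R = Q :=
  (Loq.sep_of balg Gm.ffs res' n K hK B Q R hB hb hQ).2 h

/-- centres go to centres -/
theorem Ok.cle (ok : Ok φ) {P P' : Pl K'} {Q Q' : Pl K} (h : Lies φ P Q) (h' : Lies φ P' Q')
    (e : CLe (pb φ B) P P') : CLe B Q Q' := fun G a b => by
  have := e _ (ok.rep a) (h'.pb G ▸ mul_pos (Int.cast_pos.2 h'.e_pos) b)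
  rwa [h.pb, mul_pos_iff_of_pos_left (Int.cast_pos.2 h.e_pos)] at this

/-- a big class has a member through a given place -/
theorem Big.exists_rep (hb : Big B) (Q : Pl K) : ∃ G, Rep B G ∧ 0 < G Q := by
  by_contra! c
  have := hor_of_rep hb.eff (P := Q) (fun G a => le_antisymm (c G a) (a.1 Q)) Q.t⁻¹
    (hb.fld_eq ▸ IntermediateField.mem_top)
  have e := pld_pos.2 fun h : Q.t⁻¹ ∈ Q.ring => (pld_pos (f := Q.t⁻¹) (P := Q)).1 (by
    simp [pld_apply, P297Z.Pl.ord_inv, Q.ord_t]) h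
  exact pld_pos.1 e this

/-- every place over a place `Q` of the base specialises a prime divisor over a place `Q'` which
contains the centre of `Q` -/
theorem exists_cle_over (hK' : FF K' (n + 1)) (ok : Ok φ) (hY : Smp Y) (bY : Big Y)
    (bB : Big B) (d : Dsc Y (pb φ B)) {P : Pl K'} {Q : Pl K} (h : Lies φ P Q) :
    ∃ P' Q', Lies φ P' Q' ∧ On n Y P' ∧ CLe Y P P' ∧ CLe B Q Q' := by
  obtain ⟨G, a, b⟩ := bB.exists_rep Q
  obtain ⟨P', o, p, c⟩ := (((Pr.neg_of res' (.of Ba.mod)).nn n K' hK' Y (pb φ G) hY bY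
    (d.congr (ok.rep a).2) fun R _ => (ok.rep a).1 R).2 P).1
    (h.pb G ▸ mul_pos (Int.cast_pos.2 h.e_pos) b)
  obtain ⟨Q', l⟩ : ∃ Q', Lies φ P' Q' := by_contra fun w => p.ne' (pb_of_not w _)
  exact ⟨P', Q', l, o, c, ok.cle h l (c.of_dsc d)⟩

/-- a prime divisor of the base lies under a prime divisor of the total space -/
theorem exists_on_over (hK : FF K (m + 1)) (hK' : FF K' (n + 1))
    (hφ : ∀ c, φ (algebraMap ℂ K c) = algebraMap ℂ K' c) (hY : Smp Y) (bY : Big Y) (hB : Smp B)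
    (bB : Big B) (d : Dsc Y (pb φ B)) {Q : Pl K} (hQ : On m B Q) :
    ∃ P, Lies φ P Q ∧ On n Y P := by
  obtain ⟨P, h⟩ := Pb.up hφ hK' Q
  obtain ⟨P', Q', a, b, -, c⟩ := exists_cle_over hK'
    (Cst.ok (fun c => ⟨c, (hφ c).symm⟩) hK hK') hY bY bB d h
  exact ⟨P', hQ.eq_of_cle hK hB bB c ▸ a, b⟩

namespace Sc

theorem prnv : PRNV := fun _ _ _ _ hK _ hL =>
  ⟨fun _ a b => prn_down hK hL a fun w c => (b w c).ge, fun _ => (pb_prn_iff hK hL).1,
    fun _ => (pb_eff_iff hK hL).1⟩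

theorem surj : SURJ := fun _ _ _ _ _ _ _ _ _ hK hL _ a b c d e f =>
  exists_on_over hL hK (fun _ => rfl) a b c d e f

end Sc

end Vale.Agent.P287D
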