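import Vale.Agent.P287D.Sc.St
import Vale.Agent.P287D.Gf.Vp
import Vale.Agent.P287D.Gf.Six
import Vale.Agent.P287D.Va.Alg
import Vale.Agent.P287D.Ad.Main
import Vale.Agent.P287D.Ba.Hy
import Vale.Agent.P287D.D2.Rul
import Vale.Agent.P287D.Cb.Mov
import Vale.Agent.P287D.In.Int

/-!
# P287D, block SC: the base of the ruling is the centre
-/

set_option linter.unusedVariables false

open Set

noncomputable section

namespace Vale.Agent.P287D.Sc

variable {K K' : Type} [Field K] [Algebra ℂ K] [Field K'] [Algebra ℂ K'] {n r m : ℕ}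
  {H Γ Y ΓY β A : BD K} {E : Pl K}

theorem not_big_prn (hK : FF K (n + 1)) (h : A ∈ Prn K) : ¬ Big A := fun b => by
  have := In.hy.vol_pos hK Nef.zero (b.congr (by simpa using h))
  simp [In.vol_succ, In.I_cons] at this

theorem big_res (hK : FF K (n + 1)) (a : AmpOn Y A) (o : On n Y E) : Big (res E A) :=
  (res'.des n K hK _ _ E a.dsc').big ((res'.on n K hK Y E a.smp_left).1 o)

/-- a semiample class is trivial on the generic fibre of its fibration -/
theorem pb_fld {φ : K →+* K'} (h : Smp A) (g : GFd r m (fld A) φ) : pb φ A ∈ Prn K' := by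
  obtain ⟨A₀, -, -, e⟩ := fld_down g.fk h
  have := g.ok.prn e
  rwa [pb_sub, Gx.pb_base g.toExt g.ok, sub_zero] at this

theorem Xc.ff (x : Xc H Γ Y ΓY β E) : FF (fld (res E H)) 2 := by
  have := ff_fld (Gm.ff_κ E x.fk) (res E H)
  rwa [show dim (res E H) = 2 from x.cd] at this

/-- the generic fibre of `E` over the centre is rational -/
theorem Xc.g0 (hQ : XQ) (x : Xc H Γ Y ΓY β E) {ψ : E.κ →+* K'}
    (g : GFd 2 1 (fld (res E H)) ψ) : pg K' 1 = 0 := by
  have hK := x.fk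
  obtain ⟨c, am⟩ := x.xtr.neg
  obtain ⟨c', β', hu, am'⟩ := x.xtr.anti
  have d := (hQ K H Γ Y ΓY β' E ⟨hK, x.term, x.xtr, hu, x.cd⟩).2.1
  have cW : ΓY + β' ∈ Car K := add_mem x.xtr.term.hull.1.car hu.1.car
  have b := Gx.big_pb g.ok g.gen (big_res hK (am.add am') ((x.xtr.on E).2 (Or.inr rfl)))
  by_contra k
  obtain ⟨w, -, hw⟩ := D2.exists_sec k
  obtain ⟨f, -, e⟩ := g4 2 1 _ _ _ ψ g
  have e1 : Eff (pb ψ (cn E.κ 3)) := (Eff.of_nonneg hw).congr (by
    rw [e, add_assoc, sub_add_cancel_left]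
    exact neg_mem (add_mem (dv_mem_Prn f) (dv_mem_Prn w)))
  have e2 : Eff (pb ψ (res E (ΓY + β'))) :=
    (e1.mono (g.pb_le.2 fun Q q => sub_nonpos.1 (d Q q).2)).congr (by
      rw [← pb_sub, ← neg_sub, pb_neg]
      exact neg_mem (g.ok.prn (a1 3 K hK E _ cW).2.1))
  refine not_big_prn g.ff ?_ (b.add_eff e2)
  rw [← pb_add, ← res'.add 3 K hK E _ (am.add am').car _ cW,
    show c • H - ΓY + (c' • H - β') + (ΓY + β') = (c + c') • H by rw [add_smul]; abel,
    res'.smul 3 K hK E _ _ x.xtr.smp.car, pb_smul]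
  exact Submodule.smul_mem _ _ (pb_fld (In.hy.res_smp hK E x.xtr.smp) g)

/-- **XL** -/
theorem xl_of (hQ : XQ) : XL := by
  intro K _ _ H Γ Y ΓY β E x L hL p hr
  have hE := Gm.ff_κ E x.fk
  obtain ⟨K', _, _, ψ, g⟩ := gen_ex _ _ hE _ (cld_fld (res E H))
  obtain ⟨w, -, hw⟩ := D2.exists_sec p
  have g' : GFd 2 1 (fld (res E H)) ψ := ⟨g, hE, x.ff⟩
  exact (D2.rulu Cb.gd hr hw g' (x.g0 hQ g')).symm

end Vale.Agent.P287D.Sc
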