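import Vale.Agent.P287D.Sc.Xz

/-!
# P287D, block SC: the discrepancy of the extracted divisor
-/

set_option linter.unusedVariables false

open Set

noncomputable section

namespace Vale.Agent.P287D.Sc

/-- **XA** -/
theorem xa_of (hT : Mm.TRM) : XA := by
  intro K _ _ H Γ Y ΓY β E x
  have z := (Api.mod.isb 3 K x.fk).2.2
  obtain ⟨a, ha⟩ := hT 2 K x.fk H Γ Γ E x.term x.term.hull.1
    (fun Q o => x.term.hull.2 Q o ▸ z Q) x.cd.ge
  obtain ⟨b, hb⟩ := z E
  have p := x.term.pos E x.xtr.off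
  rw [dsc, Pi.sub_apply, ha, hb] at p
  refine ⟨b - a, by exact_mod_cast p, Pr.hart_eq res' x.fk x.xtr.term.smp x.xtr.term.big
    (x.dΓY.sub x.dΓ) (x.hull.1.smul _) fun Q q => ?_⟩
  rw [Pi.sub_apply, Pi.smul_apply, x.xtr.term.hull.2 Q q, x.hull.2 Q q]
  rcases (x.xtr.on Q).1 q with o | rfl
  · rw [x.term.hull.2 Q o, Pl.δ_ne (by rintro rfl; exact x.xtr.off o), sub_self, smul_zero]
  · rw [ha, hb, Pl.δ_self, smul_eq_mul, mul_one, Int.cast_sub]

end Vale.Agent.P287D.Sc
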