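import Vale.Agent.P287D.Sc.St
import Vale.Agent.P287D.Ru.St
import Vale.Agent.P287D.Ad.Eff
import Vale.Agent.P287D.Va.Fld
import Vale.Agent.P287D.Pb.Res

/-!
# P287D, block SC: subadjunction on the centre
-/

set_option linter.unusedVariables false

open Set

noncomputable section

namespace Vale.Agent.P287D.Sc

variable {K : Type} [Field K] [Algebra ℂ K] {R A H Γ Y ΓY β X X' : BD K} {E : Pl K}

theorem res_prn {n : ℕ} (hR : RES) (hK : FF K (n + 1)) (h : X ∈ Prn K) : res E X ∈ Prn E.κ :=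
  Prn.ind (p := fun β => res E β ∈ Prn E.κ) h
    (fun f f0 => hR.pri n K hK E f f0 ▸ dv_mem_Prn _)
    (fun x y u v a c => hR.add n K hK E x (Prn_le_Car u) y (Prn_le_Car v) ▸ add_mem a c)
    fun c x u a => hR.smul n K hK E c x (Prn_le_Car u) ▸ Submodule.smul_mem _ c a

theorem hor_pb {L : IntermediateField ℂ K} {w : Pl K} (h : Hor L w) (b : BD L) :
    pb (inc L) b w = 0 := Trv.pb (φ := inc L) (fun f => h f f.2) b

namespace Dn

variable {b b' : BD (fld (res E H))} {n : ℕ}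

theorem add (hR : RES) (hK : FF K (n + 1)) (h : Dn H E X b) (h' : Dn H E X' b') (c : X ∈ Car K)
    (c' : X' ∈ Car K) : Dn H E (X + X') (b + b') := ⟨add_mem h.car h'.car, by
  rw [hR.add n K hK E X c X' c', pb_add, add_sub_add_comm]
  exact add_mem h.prn h'.prn⟩

theorem smul (hR : RES) (hK : FF K (n + 1)) (h : Dn H E X b) (c : X ∈ Car K) (t : ℝ) :
    Dn H E (t • X) (t • b) := ⟨Submodule.smul_mem _ t h.car, by
  rw [hR.smul n K hK E t X c, pb_smul, ← smul_sub]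
  exact Submodule.smul_mem _ t h.prn⟩

theorem sub (hR : RES) (hK : FF K (n + 1)) (h : Dn H E X b) (h' : Dn H E X' b') (c : X ∈ Car K)
    (c' : X' ∈ Car K) : Dn H E (X - X') (b - b') := ⟨sub_mem h.car h'.car, by
  rw [Ae.res_sub hR hK c c', pb_sub, sub_sub_sub_comm]
  exact sub_mem h.prn h'.prn⟩

theorem zero (hR : RES) (hK : FF K (n + 1)) (h : X ∈ Prn K) : Dn H E X 0 :=
  ⟨zero_mem _, by simpa [pb_zero] using res_prn hR hK h⟩

theorem congr (hR : RES) (hK : FF K (n + 1)) (h : Dn H E X b) (c : X ∈ Car K)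
    (e : X' - X ∈ Prn K) : Dn H E X' b := by
  simpa using h.add hR hK (zero hR hK e) c (Prn_le_Car e)

end Dn

namespace Xc

variable (x : Xc H Γ Y ΓY β E)
include x

theorem onE : On 3 Y E := (x.xtr.on E).2 (.inr rfl)

theorem dΓ : Dsc Y Γ := x.xtr.des.trans x.term.hull.1

theorem dΓY : Dsc Y ΓY := x.xtr.term.hull.1

theorem fκ (hF : FFS) : FF E.κ 3 := hF.rsd 3 K x.fk E

theorem fl (hF : FFS) (hL : FLD) : FF (fld (res E H)) 2 :=
  x.cd ▸ hL.ff 3 E.κ (x.fκ hF) (res E H)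

theorem ok (hF : FFS) (hL : FLD) : Ok (inc (fld (res E H))) :=
  (Cst.of_lin (φ := inc (fld (res E H))) fun _ => rfl).ok (x.fl hF hL) (x.fκ hF)

theorem hull' : Hull 3 Y (cn K 4 + E.δ) (ΓY + β) := x.xtr.term.hull.add x.hull

theorem smpY (hR : RES) : Smp (res E Y) := Ae.res_smp hR x.fk x.xtr.term.smp

theorem bigY (hR : RES) : Big (res E Y) := (hR.on 3 K x.fk Y E x.xtr.term.smp).1 x.onE

theorem bdy (h3 : A3) : Bdy 2 (res E Y) (adj 3 E (ΓY + β)) :=
  h3 2 K x.fk Y E x.xtr.term.smp x.xtr.term.big x.onE _ x.hull'.1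
    (fun Q hQ => by
      rw [dsc, Pi.sub_apply, x.hull'.2 Q hQ, Pi.add_apply]
      linarith [show 0 ≤ E.δ Q from E.δ_nonneg Q])
    (by rw [dsc, Pi.sub_apply, x.hull'.2 E x.onE, Pi.add_apply, Pl.δ_self]; ring)

theorem exists_dn (hF : FFS) (hR : RES) (hL : FLD) :
    ∃ h, Smp h ∧ Big h ∧ Dn H E H h :=
  let ⟨h, a, b, c⟩ := hL.down 3 E.κ (x.fκ hF) _ (Ae.res_smp hR x.fk x.term.smp)
  ⟨h, a, b, a.car, c⟩

end Xc

theorem Vd.dN (v : Vd R A H Γ Y ΓY β E) : Dsc Y (R - ΓY) :=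
  (v.xtr.des.trans v.desR).sub v.toXc.dΓY

theorem Vd.le (v : Vd R A H Γ Y ΓY β E) (hN : NEG) : A ≤ R - ΓY := by
  obtain ⟨c, -, hc⟩ := v.dN.neg.exists_add
  refine sub_nonpos.1 (hN.neg 3 K v.fk Y _ c v.xtr.term.smp v.xtr.term.big
    (sub_mem v.smpA.car v.dN.car) ?_ fun P hP => by rw [Pi.sub_apply, v.on P hP, sub_self])
  rw [sub_eq_add_neg, add_assoc]
  exact (v.smpA.add (hc c le_rfl)).nef

theorem klv_of (hF : FFS) (hM : MOD) (hR : RES) (hN : NEG) (hL : FLD) (h1 : A1) (h3 : A3)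
    (h6 : A6) (hU : RUL) (hP : PRNV) (hS : SURJ) (xa : XA) (xq : XQ) : KLV := by
  intro K _ _ R A H Γ Y ΓY β E v hr hn h r sh bh dh dr
  have x := v.toXc
  have hK := x.fk
  obtain ⟨a, a1, ea⟩ := xa K H Γ Y ΓY β E x
  obtain ⟨-, hd, u, u0, hu⟩ := xq K H Γ Y ΓY β E x
  have a1' : (1 : ℝ) ≤ a := by exact_mod_cast a1
  have a0 : (0 : ℝ) < a := by linarith
  have cH := x.term.smp.car
  have cR := v.smpR.car
  have cA := v.smpA.car
  have cN := sub_mem v.dN.car cA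
  have cY := x.hull'.1.car
  have m0 : (0 : ℝ) ≤ 1 + (a : ℝ)⁻¹ := by positivity
  have n0 : 0 ≤ res E (R - ΓY - A) := hR.nn 3 K hK E _ cN (sub_nonneg.2 (v.le hN))
    (by rw [Pi.sub_apply, v.on E x.onE, sub_self])
  have cl := cld_fld (res E H)
  have dn := (dh.smul hR hK cH (a : ℝ)⁻¹).add hR hK dr (Submodule.smul_mem _ _ cH) cR
  obtain ⟨Z, z1, z2⟩ := hU 2 E.κ (fld (res E H))
    (adj 3 E (ΓY + β) + (1 + (a : ℝ)⁻¹) • res E (R - ΓY - A)) ((1 + (a : ℝ)⁻¹) • res E A)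
    ((a : ℝ)⁻¹ • h + r) ⟨x.fκ hF, x.fl hF hL, cl, hr.con, (Ae.res_smp hR hK v.smpA).smul m0, by
      have e : (a : ℝ)⁻¹ • H + R = ΓY + β + (1 + (a : ℝ)⁻¹) • (R - ΓY - A + A) := by
        rw [v.eq, eq_add_of_sub_eq ea]
        funext P
        simp only [Pi.add_apply, Pi.sub_apply, Pi.smul_apply, smul_eq_mul]
        field_simp
        ring
      have k := add_mem (h1 3 K hK E _ cY).2.1 dn.prn
      rw [e, hR.add 3 K hK E _ cY _ (Submodule.smul_mem _ _ (add_mem cN cA)),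
        hR.smul 3 K hK E _ _ (add_mem cN cA), hR.add 3 K hK E _ cN _ cA, smul_add] at k
      rwa [← add_sub_assoc, ← add_assoc, sub_add_cancel, ← add_assoc] at k,
    fun w hw => by simpa [dsc, hn w hw] using (hd w hw).2,
    fun w hw => by simpa [dsc, hn w hw] using (hd w hw).1⟩
  have dg : Dn H E Γ (r - h) := by simpa [v.eq] using dr.sub hR hK dh cR cH
  obtain ⟨p, p1, p2⟩ := (hP 3 E.κ (x.fκ hF) _ cl).1 (res E Γ + dv u - pb (inc _) (r - h))
    (by rw [add_sub_right_comm]; exact add_mem dg.prn (dv_mem_Prn u))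
    fun w hw => by rw [Pi.sub_apply, hu w hw, hor_pb hw, sub_zero]
  have key : ∀ v', On 1 h v' → 0 ≤ Z v' ∧ ((∃ k : ℤ, (h - r - p) v' = k) ∨ 1 / 2 ≤ Z v') := by
    intro v' hv
    obtain ⟨w, l, o⟩ := hS 2 1 E.κ _ (res E Y) h v' (x.fκ hF) (x.fl hF hL) cl (x.smpY hR)
      (x.bigY hR) sh bh ((hR.des 3 K hK Y H E x.xtr.des).congr (by simpa using neg_mem dh.prn)) hv
    have e1 : (1 : ℝ) ≤ w.ord (inc _ v'.t) := by exact_mod_cast l.e_pos
    have b := x.bdy h3 w o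
    have g : (w.ord (inc _ v'.t) : ℝ) - (1 + dsc 3 (adj 3 E (ΓY + β)) w) ≤
        w.ord (inc _ v'.t) * Z v' := by
      have g1 := z2 w v' l
      have g2 := mul_nonneg m0 (n0 w)
      simp only [dsc, Pi.add_apply, Pi.sub_apply, Pi.smul_apply, smul_eq_mul] at g1 ⊢
      linarith
    refine ⟨by nlinarith, ?_⟩
    by_cases c : -1 < dsc 3 (adj 3 E (ΓY + β)) w
    swap
    · exact .inr (by nlinarith)
    obtain ⟨ρ, ρ0, d1, d2⟩ := h6 2 K hK Y E x.xtr.term.smp x.xtr.term.big x.onE _ x.hull' w o c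
    obtain ⟨⟨k, hk⟩, -⟩ := d2 Γ x.dΓ fun Q hQ => by
      obtain ⟨j, hj⟩ := (hM.isb 3 K hK).2.2 Q
      rcases (x.xtr.on Q).1 hQ with o | rfl
      · exact ⟨j, (x.term.hull.2 Q o).trans hj⟩
      · refine ⟨j - a, ?_⟩
        have := congrFun ea Q
        rw [Pi.sub_apply, Pi.smul_apply, x.hull.2 Q hQ, Pl.δ_self, x.xtr.term.hull.2 Q hQ,
          hj] at this
        push_cast
        rw [smul_eq_mul] at this
        linarith
    change dsc 3 (adj 3 E (ΓY + β)) w = _ at d1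
    rcases Nat.lt_or_ge 1 ρ with q | q
    · have q1 : (2 : ℝ) ≤ ρ := by exact_mod_cast q
      have q2 := one_div_le_one_div_of_le two_pos q1
      exact .inr (by nlinarith)
    obtain rfl : ρ = 1 := by omega
    rcases (Int.add_one_le_of_lt l.e_pos).eq_or_lt with q' | q'
    · refine .inl ⟨-(k + w.ord u), ?_⟩
      have e := congrFun p2 w
      simp only [Pi.add_apply, Pi.sub_apply, l.pb, ← q', hk, dv_apply] at e ⊢
      push_cast at e ⊢
      linarith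
    · have q1 : (2 : ℝ) ≤ w.ord (inc _ v'.t) := by exact_mod_cast (by omega : 2 ≤ w.ord (inc _ v'.t))
      norm_num at d1
      exact .inr (by nlinarith)
  exact ⟨Z, h - r - p, _, by positivity, inv_le_one_of_one_le₀ a1', z1, by simpa using neg_mem p1,
    fun v' hv => (key v' hv).1, fun v' hv => (key v' hv).2⟩

end Vale.Agent.P287D.Sc
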