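import Vale.Agent.P287D.Sc.St
import Vale.Agent.P287D.In.Int
import Vale.Agent.P287D.Va.Dsc

/-!
# P287D, block SC: the degree of the centre
-/

set_option linter.unusedVariables false

open Set

noncomputable section

namespace Vale.Agent.P287D.Sc

variable {K : Type} [Field K] [Algebra ℂ K] {a a' b c d Λ : BD K}

theorem vec2 {p : BD K → Prop} (hc : p c) (hd : p d) : ∀ i, p (![c, d] i) :=
  Fin.forall_fin_two.2 ⟨hc, hd⟩

theorem vec3 {p : BD K → Prop} (hb : p b) (hc : p c) (hd : p d) : ∀ i, p (![b, c, d] i) :=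
  In.cons_mem hb (vec2 hc hd)

section

variable (h : In.Hy) (hK : FF K 4)
include h hK

theorem I4_swap (ha : a ∈ Car K) (hb : b ∈ Car K) (hc : c ∈ Car K) (hd : d ∈ Car K) :
    I4 a b c d = I4 b a c d := h.swap (n := 2) hK ha hb (vec2 (p := (· ∈ Car K)) hc hd)

theorem I4_sub (ha : a ∈ Car K) (ha' : a' ∈ Car K) (hb : b ∈ Car K) (hc : c ∈ Car K)
    (hd : d ∈ Car K) : I4 (a - a') b c d = I4 a b c d - I4 a' b c d :=
  h.cons_sub (n := 3) hK (h.isb 3 K hK _ ha) (h.isb 3 K hK _ ha')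
    (vec3 (p := (· ∈ Car K)) hb hc hd)

theorem I4_trace (hb : Dsc Λ b) (hc : Dsc Λ c) (hd : Dsc Λ d) (e : ∀ P, On 3 Λ P → a P = a' P) :
    I4 a b c d = I4 a' b c d := h.cons_trace (n := 3) hK hb.smp (vec3 hb hc hd) e

theorem I4_exc (hb : Dsc Λ b) (hc : Dsc Λ c) (hd : Dsc Λ d) (e : ∀ P, On 3 Λ P → a P = 0) :
    I4 a b c d = 0 := by
  rw [I4_trace h hK hb hc hd (a' := (0 : ℝ) • a) fun P k => by simp [e P k]]
  exact (In.cons_smul (n := 3) 0 a ![b, c, d]).trans (zero_mul _)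

theorem I4_nn (ha : a ∈ Car K) (e : Psef a) (hb : Nef b) (hc : Nef c) (hd : Nef d) :
    0 ≤ I4 a b c d := h.cons_nn (n := 3) hK (h.isb 3 K hK _ ha) e (vec3 hb hc hd)

end

/-- **NUM** -/
theorem num (h : In.Hy) (hN : NEG) (hA : XA) (hQ : XQ) : NUM := by
  intro K _ _ R A H Γ Y ΓY β E v
  have hK := v.fk
  have x := v.xtr
  have yH : Dsc Y H := x.des
  have yβ : Dsc Y β := v.hull.1
  have yW : Dsc Y (ΓY - Γ) := x.term.hull.1.sub (yH.trans v.term.hull.1)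
  have e1 : R - ΓY = H - (ΓY - Γ) := by rw [v.eq]; abel
  have yD : Dsc Y (H - (ΓY - Γ)) := yH.sub yW
  have β0 : 0 ≤ β :=
    (hN.nn 3 K hK Y β x.term.smp x.term.big yβ fun P k => v.hull.2 P k ▸ E.δ_nonneg P).1
  have βH : ∀ P, On 3 H P → β P = 0 := fun P k => by
    rw [v.hull.2 P ((x.on P).2 (Or.inl k)), Pl.δ_ne (by rintro rfl; exact x.off k)]
  have WH : ∀ P, On 3 H P → (ΓY - Γ) P = 0 := fun P k => by
    rw [Pi.sub_apply, x.term.hull.2 P ((x.on P).2 (Or.inl k)), v.term.hull.2 P k, sub_self]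
  have le : A ≤ H - (ΓY - Γ) := by
    obtain ⟨c, -, hc⟩ := yD.neg.exists_add
    refine sub_nonpos.1 (hN.neg 3 K hK Y _ c x.term.smp x.term.big (sub_mem v.smpA.car yD.car) ?_
      fun P k => by rw [Pi.sub_apply, v.on P k, e1, sub_self])
    have := (v.smpA.add (hc c le_rfl)).nef
    rwa [← add_assoc, ← sub_eq_add_neg] at this
  refine ⟨v.smpA.eff.mono (le.trans ?_), fun X H₁ H₂ h₁ h₂ dX eX d₁ d₂ n₁ n₂ k₁ k₂ => ?_⟩
  · obtain ⟨a, a1, ea⟩ := hA K H Γ Y ΓY β E v.toXc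
    rw [ea]
    intro P
    have : (1 : ℝ) ≤ a := by exact_mod_cast a1
    have := β0 P
    simp only [Pi.sub_apply, Pi.smul_apply, smul_eq_mul, Pi.zero_apply] at *
    nlinarith
  obtain ⟨⟨q, q1, hq⟩, -⟩ := hQ K H Γ Y ΓY β E v.toXc
  have hq := hq H₁ H₂ h₁ h₂ d₁ d₂ k₁ k₂
  have rH := Dsc.refl x.smp
  have yX := (yH.trans dX).sub yβ
  have c₁ := d₁.car
  have c₂ := d₂.car
  have p0 : 0 ≤ I4 X H H₁ H₂ :=
    I4_nn h hK dX.car (by simpa using (eX.add (.of_nonneg β0)).psef) x.smp.nef n₁ n₂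
  have p1 : 0 ≤ I4 (X - β) A H₁ H₂ := I4_nn h hK yX.car eX.psef v.smpA.nef n₁ n₂
  rw [I4_swap h hK yX.car v.smpA.car c₁ c₂,
    I4_trace h hK yX (yH.trans d₁) (yH.trans d₂) (a' := H - (ΓY - Γ)) fun P k => e1 ▸ v.on P k,
    I4_sub h hK yH.car yW.car yX.car c₁ c₂, I4_swap h hK yH.car yX.car c₁ c₂,
    I4_swap h hK yW.car yX.car c₁ c₂, I4_sub h hK dX.car yβ.car yH.car c₁ c₂,
    I4_sub h hK dX.car yβ.car yW.car c₁ c₂, I4_exc h hK rH d₁ d₂ βH,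
    I4_swap h hK dX.car yW.car c₁ c₂, I4_exc h hK dX d₁ d₂ WH, hq] at p1
  rcases le_total (I2 h₁ h₂) 0 with k | k
  · exact k.trans p0
  · nlinarith

end Vale.Agent.P287D.Sc
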