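import Vale.Agent.P287D.Sc.Xl
import Vale.Agent.P287D.Sc.Klv
import Vale.Agent.P287D.Sc.Num
import Vale.Agent.P287D.Api.Int
import Vale.Agent.P287D.Ad.All
import Vale.Agent.P287D.Ea.Cd

/-!
# P287D, block SC: the extraction is generically the blow up of the centre
-/

set_option linter.unusedVariables false

open Set

noncomputable section

namespace Vale.Agent.P287D.Sc

variable {K K' : Type} [Field K] [Algebra ℂ K] [Field K'] [Algebra ℂ K'] {n r m : ℕ}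
  {H Γ Y ΓY β X A : BD K} {E : Pl K}

theorem I1_dsc (hK : FF K 1) (h : A ∈ Prn K) (d : Dsc A X) : I1 X = 0 := by
  obtain ⟨ε, e, a, b⟩ := id d
  have c := Submodule.smul_mem _ ε d.car
  have a' := Cv.eff_nonneg hK a.car a.eff
  have b' := Cv.eff_nonneg hK b.car b.eff
  rw [Cv.I1_add hK d.smp.car c, Cv.I1_prn hK h, Cv.I1_smul] at a'
  rw [Cv.I1_sub hK d.smp.car c, Cv.I1_prn hK h, Cv.I1_smul] at b'
  exact (mul_eq_zero.1 (by linarith)).resolve_left e.ne'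

namespace Xc

variable (x : Xc H Γ Y ΓY β E)
include x

theorem gf : ∃ (K' : Type) (_ : Field K') (_ : Algebra ℂ K') (ψ : E.κ →+* K'),
    GFd 2 1 (fld (res E H)) ψ :=
  let ⟨K', a, b, ψ, g⟩ := gen_ex _ _ (Gm.ff_κ E x.fk) _ (cld_fld (res E H))
  ⟨K', a, b, ψ, g, Gm.ff_κ E x.fk, x.ff⟩

theorem smpH : Smp (res E H) := In.hy.res_smp x.fk E x.xtr.smp

/-- the horizontal places are prime divisors of the normalisation of `E` -/
theorem on_hor {w : Pl E.κ} (hw : Hor (fld (res E H)) w) : On 2 (res E Y) w := by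
  obtain ⟨K', _, _, ψ, g⟩ := x.gf
  obtain ⟨h, sh, bh, e⟩ := fld_down g.fk x.smpH
  obtain ⟨P, hP⟩ := g.toGF.above g.fl hw
  exact (Gx.on_fib Api.mod res' Api.vol Api.pb g2 g2b g3 (g3b Api.mod Api.neg) (m := 0) g bh sh
    ((res'.des 3 K x.fk _ _ E x.xtr.des).congr (neg_sub (res E H) _ ▸ neg_mem e)) hP).1.1
    (Cv.on0 _ _)

variable {ψ : E.κ →+* K'} (g : GFd 2 1 (fld (res E H)) ψ)
include g

theorem deg0 (d : Dsc H X) : I1 (pb ψ (res E X)) = 0 :=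
  I1_dsc g.ff (pb_fld x.smpH g) (g.ok.dsc (res'.des 3 K x.fk _ _ E d))

theorem carZ (hF : FLD) (hT : Mm.TRM) (d : Dsc Y X) (i : ∀ Q, On 3 Y Q → ∃ z : ℤ, X Q = z) :
    pb ψ (res E X) ∈ CarZ K' :=
  (Cv.carZ_iff g.ff).2 ⟨g.ok.car (In.res_car _ _), fun P => by
    obtain ⟨Q, hP⟩ := g.toGF.below g.ff P
    rw [g.toGF.pb_eq hP]
    exact Ea.trm_on In.hy hF hT x.fk x.xtr.term d i E Q (x.on_hor (g.toExt.hor hP))⟩

theorem fib (hF : FLD) (hT : Mm.TRM) (hA : XA) : ΓY - Γ = β ∧ I1 (pb ψ (res E β)) = -1 ∧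
    (∀ w, Hor (fld (res E H)) w → dsc 3 (adj 3 E (ΓY + β)) w = 0) ∧ pg K' 1 = 0 := by
  have hK := x.fk
  have k1 := g.ff
  obtain ⟨a, ha, ea⟩ := hA K H Γ Y ΓY β E x
  obtain ⟨k, hk⟩ := Cv.I1_int k1 (x.carZ g hF hT x.hull.1 fun Q q => by
    rw [x.hull.2 Q q, Pl.δ]
    split_ifs
    exacts [⟨1, Int.cast_one.symm⟩, ⟨0, Int.cast_zero.symm⟩])
  have c := fun Z : BD K => g.ok.car (In.res_car E Z)
  have cβ := x.hull.1.car
  have key : ∀ Z, Dsc H Z → ∀ t : ℝ, I1 (pb ψ (res E (Z + t • β))) = t * k := fun Z d t => by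
    rw [res'.add 3 K hK E _ d.car _ (Submodule.smul_mem _ _ cβ), res'.smul 3 K hK E _ _ cβ, pb_add,
      pb_smul, Cv.I1_add k1 (c _) (Submodule.smul_mem _ _ (c _)), x.deg0 g d, Cv.I1_smul, hk,
      zero_add]
  obtain ⟨t, am⟩ := x.xtr.neg
  have p := (Cv.big_iff k1 (c _)).1 (Gx.big_pb g.ok g.gen (big_res hK am x.onE))
  rw [eq_add_of_sub_eq ea, show t • H - ((a : ℝ) • β + Γ) = t • H - Γ + (-a : ℝ) • β by module,
    key _ (((Dsc.refl x.xtr.smp).smul t).sub x.term.hull.1)] at p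
  have cW := x.hull'.1.car
  obtain ⟨u1, u2, -⟩ := a1 3 K hK E _ cW
  obtain ⟨f, -, e⟩ := g4 2 1 _ _ _ ψ g
  have c0 : pb ψ (cn E.κ 3) ∈ Car K' := by
    have := sub_mem (Cv.cn_car k1) (dv_mem_Car f)
    rwa [e, add_sub_cancel_right] at this
  have d0 : I1 (pb ψ (cn E.κ 3)) = 2 * pg K' 1 - 2 := by
    rw [← Cv.I1_cn k1, e, Cv.I1_add k1 c0 (dv_mem_Car f), Cv.I1_dv k1, add_zero]
  have d1 : I1 (pb ψ (adj 3 E (ΓY + β))) = (a + 1) * k := by
    have := Cv.I1_prn k1 (g.ok.prn u2)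
    rw [pb_sub, Cv.I1_sub k1 (g.ok.car u1) (c _), sub_eq_zero] at this
    rw [this, ← key _ x.term.hull.1, eq_add_of_sub_eq ea]
    congr 3
    module
  have le : pb ψ (cn E.κ 3) ≤ pb ψ (adj 3 E (ΓY + β)) :=
    g.pb_le.2 fun Q q => sub_nonpos.1 (x.bdy a3 Q (x.on_hor q))
  have l := Cv.I1_mono k1 c0 (g.ok.car u1) le
  rw [d0, d1] at l
  have p' : 0 < -a * k := by exact_mod_cast p
  have l' : 2 * (pg K' 1 : ℤ) - 2 ≤ (a + 1) * k := by exact_mod_cast l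
  have k0 : k ≤ -1 := by nlinarith
  have g0 := Int.natCast_nonneg (pg K' 1)
  obtain rfl : a = 1 := by nlinarith
  obtain rfl : k = -1 := by omega
  refine ⟨by simpa using ea, by simpa using hk, fun w hw => sub_eq_zero.2 (g.pb_eq.1
    (Cv.eq_of_I1 k1 c0 (g.ok.car u1) le ?_) w hw), by omega⟩
  rw [d0, d1]
  have := Nat.cast_nonneg (α := ℝ) (pg K' 1)
  push_cast
  linarith

theorem hor_prn (hF : FLD) (hT : Mm.TRM) (hg : pg K' 1 = 0) :
    ∃ u : E.κ, u ≠ 0 ∧ ∀ w, Hor (fld (res E H)) w → (res E Γ + dv u) w = 0 := by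
  have k1 := g.ff
  have z := x.carZ g hF hT x.dΓ fun Q q => by
    rcases (x.xtr.on Q).1 q with o | rfl
    · exact x.term.hull.2 Q o ▸ (Api.mod.isb 3 K x.fk).2.2 Q
    · exact hT 2 K x.fk H Γ Γ Q x.term x.term.hull.1
        (fun Q o => x.term.hull.2 Q o ▸ (Api.mod.isb 3 K x.fk).2.2 Q) x.cd.ge
  have d := x.deg0 g x.term.hull.1
  have r := Cv.rr k1 z
  rw [d, hg] at r
  obtain ⟨w, w0, hw⟩ := D2.exists_sec (β := pb ψ (res E Γ)) fun e => by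
    rw [e] at r
    have := Nat.cast_nonneg (α := ℝ) (h0 (cn K' 1 - pb ψ (res E Γ)))
    push_cast at r
    linarith
  have s := g.toGF.des_sec g.ok (g := w) (Or.inr (add_comm (dv w) _ ▸ hw))
  obtain ⟨u, u0, hu⟩ : ∃ u : E.κ, u ≠ 0 ∧ 0 ≤ pb ψ (dv u + res E Γ) := by
    by_contra! k
    rw [show {f : E.κ | f ≠ 0 ∧ 0 ≤ pb ψ (dv f + res E Γ)} = ∅ from
      eq_empty_of_forall_notMem fun f h => k f h.1 h.2, image_empty, Submodule.span_empty] at s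
    exact w0 s
  have c := g.ok.car (In.res_car E Γ)
  refine ⟨u, u0, g.pb_eq_zero.1 ?_⟩
  rw [add_comm]
  refine Cv.eq_zero_of_I1 k1 (g.ok.car (add_mem (dv_mem_Car u) (In.res_car _ _))) hu ?_
  rw [pb_add, g.ok.pb_dv, Cv.I1_add k1 (dv_mem_Car _) c, Cv.I1_dv k1, d, add_zero]

omit g

variable (hF : FLD) (hT : Mm.TRM) (hA : XA)
include hF hT hA

theorem one : ΓY - Γ = β := let ⟨_, _, _, _, g⟩ := x.gf; (x.fib g hF hT hA).1

theorem dsc0 {w : Pl E.κ} (hw : Hor (fld (res E H)) w) : dsc 3 (adj 3 E (ΓY + β)) w = 0 :=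
  let ⟨_, _, _, _, g⟩ := x.gf; (x.fib g hF hT hA).2.2.1 w hw

theorem I3_eq {a b : BD (fld (res E H))} (ha : a ∈ Car _) (hb : b ∈ Car _) :
    I3 (res E β) (pb (inc _) a) (pb (inc _) b) = -I2 a b := by
  obtain ⟨K', _, _, ψ, g⟩ := x.gf
  have := g5 Api.ffs Api.mod res' Api.int Api.pb g1b g2 g2b 2 1 _ _ _ ψ g (fun _ => res E β)
    ![a, b] (fun _ _ => In.res_car _ _) (vec2 (p := (· ∈ Car _)) ha hb)
  rw [show (fun _ : Fin 1 => pb ψ (res E β)) = ![pb ψ (res E β)] from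
      funext (Fin.forall_fin_one.2 rfl), show (fun j => pb (inc _) (![a, b] j)) =
      ![pb (inc _) a, pb (inc _) b] from funext (Fin.forall_fin_two.2 ⟨rfl, rfl⟩)] at this
  exact this.trans (by rw [show I 1 K' _ = -1 from (x.fib g hF hT hA).2.1, mul_neg_one])

end Xc

/-- **XQ** -/
theorem xq_of (hF : FLD) (hT : Mm.TRM) (hA : XA) : XQ := by
  intro K _ _ H Γ Y ΓY β E x
  refine ⟨⟨1, le_rfl, fun H₁ H₂ h₁ h₂ d₁ d₂ k₁ k₂ => ?_⟩, fun w hw => ?_, ?_⟩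
  · have o := x.ok Api.ffs hF
    rw [x.one hF hT hA, neg_one_mul, ← x.I3_eq hF hT hA k₁.car k₂.car]
    exact (In.hy.cf_hull (n := 3) x.fk x.xtr.term.smp
      (vec3 x.hull.1 (x.xtr.des.trans d₁) (x.xtr.des.trans d₂)) x.hull).symm.trans
      (Pb.I_congr In.hy (x.fκ Api.ffs) (β := ![res E β, pb (inc _) h₁, pb (inc _) h₂])
        (vec3 (p := (· ∈ Car _)) (In.res_car _ _) (o.car k₁.car) (o.car k₂.car))
        (Fin.forall_fin_succ.2 ⟨by simp, Fin.forall_fin_two.2 ⟨k₁.prn, k₂.prn⟩⟩))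
  · rw [x.dsc0 hF hT hA hw]
    norm_num
  · obtain ⟨K', _, _, ψ, g⟩ := x.gf
    have e := (x.fib g hF hT hA).2.2.2
    exact x.hor_prn g hF hT e

end Vale.Agent.P287D.Sc
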