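import Vale.Agent.P287D.Sc.St
import Vale.Agent.P287D.Lk.Geos
import Vale.Agent.P287D.Lc.St
import Vale.Agent.P287D.Va.Fld

/-!
# P287D, block SC: the data of a link
-/

set_option linter.unusedVariables false

open Set

noncomputable section

namespace Vale.Agent.P287D.Sc

variable {K : Type} [Field K] [Algebra ℂ K] {n : ℕ} {Λ H Y ΓY : BD K} {E : Pl K}

theorem xtr_congr (hN : NEG) (hK : FF K (n + 1)) (a : AmpOn Λ H) (x : Xtr n Y ΓY Λ E) :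
    Xtr n Y ΓY H E := by
  have d := x.des.trans a.1
  obtain ⟨c, hc⟩ := Lk.amp_large x.neg a.dsc' d
  obtain ⟨c', β, hu, am⟩ := x.anti
  obtain ⟨c'', hc'⟩ := Lk.amp_large ⟨c', am⟩ a.dsc' d
  exact ⟨x.term, x.qf, a.smp, a.big_iff.1 x.big, d, fun k => x.off ((Lk.on_iff hN hK a E).2 k),
    fun Q => by rw [x.on, Lk.on_iff hN hK a], ⟨c, hc c le_rfl⟩, c'', β, hu, hc' _ le_rfl⟩

theorem cd_congr (hR : RES) (hK : FF K (n + 1)) (a : AmpOn Λ H) : cd H E = cd Λ E :=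
  (AmpOn.of_dsc (hR.des n K hK _ _ E a.1) (hR.des n K hK _ _ E a.dsc')).dim_eq

/-- **VD** -/
theorem vd_of (hM : MOD) (hR : RES) (hN : NEG) (xl : XL) (nh : NH) : VD := by
  intro K _ _ hK R A Λ B Γ E h i P e c2 d S hS ⟨L, sL, rL⟩
  obtain ⟨aB, Y, ΓY, x⟩ := h.ext i P e
  obtain ⟨H₀, f, s⟩ := hS.isS L sL
  have p := s.pg_ne hM
  obtain ⟨c, A', sA, o, k⟩ := nh K hK R A Λ B Γ E h i P Y ΓY e x c2 L s.ff p rL
  have m := h.mfs i
  have dR := m.des.trans aB.1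
  obtain ⟨c₀, hc⟩ := Lk.amp_large m.neg aB.dsc' dR
  obtain ⟨t, t0, t1, t2⟩ : ∃ t : ℝ, 0 ≤ t ∧ c₀ ≤ c + t ∧ 0 < c + t :=
    ⟨|c₀| + |c| + 1, by positivity, by linarith [le_abs_self c₀, neg_abs_le c],
      by linarith [abs_nonneg c₀, neg_abs_le c]⟩
  have a := hc _ t1
  obtain ⟨-, β, hu, -⟩ := x.anti
  have y : Xc ((c + t) • R - Γ i) (Γ i) Y ΓY β P :=
    ⟨hK, Lk.term_congr hN hK a.symm m.term, xtr_congr hN hK a x, hu, (cd_congr hR hK a).trans c2⟩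
  have l := xl K _ _ Y ΓY β P y L s.ff p rL
  refine ⟨c + t, A' + t • R, _, Y, ΓY, β, t2, a, ⟨y, rfl, h.smp.smul t2.le,
    a.dsc_iff.1 (dR.smul _), sA.add (h.smp.smul t0), fun Q q => ?_⟩, l ▸ sL, l ▸ rL, l ▸ ?_⟩
  · rw [Pi.add_apply, o Q q, add_smul]
    simp only [Pi.add_apply, Pi.sub_apply]
    ring
  · intro w hw
    rw [add_smul, show c • R + t • R - ΓY - (A' + t • R) = c • R - ΓY - A' by abel]
    exact k w hw

end Vale.Agent.P287D.Sc
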