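import Vale.Agent.P287D.Sk
import Vale.Agent.P287D.Ad.Df
import Vale.Agent.P287D.Sf.Df

/-!
# P287D, block SC: surface centres (definitions and statements)
-/

set_option linter.unusedVariables false

open Set

noncomputable section

namespace Vale.Agent.P287D.Sc

section defs

variable {K : Type} [Field K] [Algebra ℂ K]

/-- `b` is the restriction of `β` to the centre of `E` on `V H` -/
structure Dn (H : BD K) (E : Pl K) (β : BD K) (b : BD (fld (res E H))) : Prop where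
  car : b ∈ Car (fld (res E H))
  prn : res E β - pb (inc (fld (res E H))) b ∈ Prn E.κ

/-- the extraction of a divisor with a surface centre; `β` is the pull back of `E` -/
structure Xc (H Γ Y ΓY β : BD K) (E : Pl K) : Prop where
  fk : FF K 4
  term : Term 3 H Γ
  xtr : Xtr 3 Y ΓY H E
  hull : Hull 3 Y E.δ β
  cd : cd H E = 2

/-- one side of a vertex: `H = R - Γ` is ample on `V`, the semiample `A` has the trace of
`R - K_Y` on `Y` -/
structure Vd (R A H Γ Y ΓY β : BD K) (E : Pl K) : Prop extends Xc H Γ Y ΓY β E where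
  eq : H = R - Γ
  smpR : Smp R
  desR : Dsc H R
  smpA : Smp A
  on : ∀ Q, On 3 Y Q → A Q = (R - ΓY) Q

/-- the fixed part of `R - K_Y` has no component on `E` which is horizontal over `L` -/
def Nh (R A ΓY : BD K) (E : Pl K) (L : IntermediateField ℂ E.κ) : Prop :=
  ∀ w, Hor L w → res E (R - ΓY - A) w = 0

/-- the output of subadjunction on the centre -/
structure Kd {L : Type} [Field L] [Algebra ℂ L] (h r Z z : BD L) (μ : ℝ) : Prop where
  nn : 0 ≤ μ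
  le : μ ≤ 1
  prn : Z - (μ • h + r - cn L 2) ∈ Prn L
  prz : z - (h - r) ∈ Prn L
  pos : ∀ v, On 1 h v → 0 ≤ Z v
  int : ∀ v, On 1 h v → (∃ k : ℤ, z v = k) ∨ 1 / 2 ≤ Z v

end defs

/-- a statement for all extractions with a surface centre -/
def ForX (P : ∀ (K : Type) [Field K] [Algebra ℂ K] (H Γ Y ΓY β : BD K) (E : Pl K), Prop) : Prop :=
  ∀ (K : Type) [Field K] [Algebra ℂ K] (H Γ Y ΓY β : BD K) (E : Pl K), Xc H Γ Y ΓY β E →
    P K H Γ Y ΓY β E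

/-- a statement for all sides of vertices -/
def ForV (P : ∀ (K : Type) [Field K] [Algebra ℂ K] (R A H Γ Y ΓY β : BD K) (E : Pl K), Prop) :
    Prop :=
  ∀ (K : Type) [Field K] [Algebra ℂ K] (R A H Γ Y ΓY β : BD K) (E : Pl K), Vd R A H Γ Y ΓY β E →
    P K R A H Γ Y ΓY β E

/-- **PRNV**: vertical principal b-divisors come from the base -/
def PRNV : Prop := ForK fun _ K _ _ => ∀ L : IntermediateField ℂ K, Cld L →
  (∀ p ∈ Prn K, (∀ w, Hor L w → p w = 0) → ∃ p₀ ∈ Prn L, p = pb (inc L) p₀) ∧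
  (∀ b : BD L, pb (inc L) b ∈ Prn K → b ∈ Prn L) ∧ ∀ b : BD L, Eff (pb (inc L) b) → Eff b

/-- **SURJ**: over every prime divisor of the base there is a prime divisor of the total space -/
def SURJ : Prop := ∀ (n m : ℕ) (K : Type) [Field K] [Algebra ℂ K] (L : IntermediateField ℂ K)
  (Λ : BD K) (h : BD L) (v : Pl L), FF K (n + 1) → FF L (m + 1) → Cld L → Smp Λ → Big Λ → Smp h →
  Big h → Dsc Λ (pb (inc L) h) → On m h v → ∃ w, Lies (inc L) w v ∧ On n Λ w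

/-- **XA**: the discrepancy of the extracted divisor is a positive integer -/
def XA : Prop := ForX fun _ _ _ _ Γ _ ΓY β _ => ∃ a : ℤ, 1 ≤ a ∧ ΓY - Γ = (a : ℝ) • β

/-- **XQ**: the generic fibre of `E` over its centre -/
def XQ : Prop := ForX fun _ _ _ H Γ _ ΓY β E =>
  (∃ q : ℝ, 1 ≤ q ∧ ∀ H₁ H₂ h₁ h₂, Dsc H H₁ → Dsc H H₂ → Dn H E H₁ h₁ → Dn H E H₂ h₂ →
    I4 β (ΓY - Γ) H₁ H₂ = -q * I2 h₁ h₂) ∧
  (∀ w, Hor (fld (res E H)) w →
    -1 ≤ dsc 3 (adj 3 E (ΓY + β)) w ∧ dsc 3 (adj 3 E (ΓY + β)) w ≤ 0) ∧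
  ∃ u : E.κ, u ≠ 0 ∧ ∀ w, Hor (fld (res E H)) w → (res E Γ + dv u) w = 0

/-- **XL**: the base of the ruling is the centre -/
def XL : Prop := ForX fun _ _ _ H _ _ _ _ E => ∀ L : IntermediateField ℂ E.κ, FF L 2 →
  pg L 2 ≠ 0 → Ruled L → L = fld (res E H)

/-- **NH**: the improved nef part (small maps are isomorphisms at surfaces with `p_g ≠ 0`) -/
def NH : Prop := ∀ (K : Type) [Field K] [Algebra ℂ K], FF K 4 → ∀ (R A : BD K) Λ B Γ E,
  Link 3 R A Λ B Γ E → ∀ i P Y ΓY, E i = some P → Xtr 3 Y ΓY (Λ i) P → cd (Λ i) P = 2 →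
  ∀ L : IntermediateField ℂ P.κ, FF L 2 → pg L 2 ≠ 0 → Ruled L →
    ∃ (c : ℝ) (A' : BD K), Smp A' ∧ (∀ Q, On 3 Y Q → A' Q = (c • R - ΓY) Q) ∧
      Nh (c • R) A' ΓY P L

/-- **NUM**: the degree of the centre -/
def NUM : Prop := ForV fun _ _ _ _ _ H _ _ _ β E => Eff (H - β) ∧
  ∀ X H₁ H₂ h₁ h₂, Dsc H X → Eff (X - β) → Dsc H H₁ → Dsc H H₂ → Nef H₁ → Nef H₂ →
    Dn H E H₁ h₁ → Dn H E H₂ h₂ → I2 h₁ h₂ ≤ I4 X H H₁ H₂

/-- **KLV**: subadjunction on the centre -/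
def KLV : Prop := ForV fun _ _ _ R A H _ _ ΓY _ E => Ruled (fld (res E H)) →
  Nh R A ΓY E (fld (res E H)) → ∀ h r, Smp h → Big h → Dn H E H h → Dn H E R r →
    ∃ Z z μ, Kd h r Z z μ

/-- **VD**: the data of a link -/
def VD : Prop := ∀ (K : Type) [Field K] [Algebra ℂ K], FF K 4 → ∀ (R A : BD K) Λ B Γ E,
  Link 3 R A Λ B Γ E → ∀ i P, E i = some P → cd (Λ i) P = 2 → ∀ d S, SCl d S → SDiv S P.κ →
    ∃ (c : ℝ) (A' H Y ΓY β : BD K), 0 < c ∧ AmpOn (Λ i) H ∧ Vd (c • R) A' H (Γ i) Y ΓY β P ∧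
      S (fld (res P H)) ∧ Ruled (fld (res P H)) ∧ Nh (c • R) A' ΓY P (fld (res P H))

/-- **KLS**: the ends on the surface of type S -/
def KLS : Prop := ∀ x : ℝ, ∃ d₀ : ℕ, ∀ (d : ℕ) (L : Type) [Field L] [Algebra ℂ L] (H : BD L)
  (f : L), d₀ ≤ d → IsS d L H f → ∀ (h r Z z : BD L) (μ : ℝ), Smp h → Big h → Kd h r Z z μ →
  (r ∈ Prn L → x < I2 h h ∧ ∀ s, 0 < I2 h (mx s) → x < I2 h (mx s)) ∧
  ∀ F ∈ CarZ L, Nef F → Dsc h F → r ∈ Car L → I2 F F = 0 → I2 r F = 0 → 0 < I2 h F → x < I2 h F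

open Classical in
/-- **DICH**: a terminal Fano fourfold of Picard number one has a bounded volume or a pencil of
bounded degree -/
def DICH : Prop := ∃ v : ℝ, ∀ (K : Type) [Field K] [Algebra ℂ K], FF K 4 → ∀ Λ Γ : BD K,
  Fano1 3 Λ → Term 3 Λ Γ → vol 4 (-Γ) ≤ v ∨ ∃ (f : K) (w : ℝ), Transcendental ℂ f ∧
    Eff (w • (-Γ) - mx {1, f}) ∧ w * vol 4 (-Γ) ≤ v

/-- **VOL3**: the volume of canonical Fano threefolds is bounded -/
def VOL3 : Prop := ∃ v : ℝ, ∀ (K : Type) [Field K] [Algebra ℂ K], FF K 3 → ∀ G : BD K, Smp (-G) →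
  Big (-G) → 0 ≤ dsc 3 G → Bdy 2 (-G) G → vol 3 (-G) ≤ v

end Vale.Agent.P287D.Sc
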