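import Vale.Agent.P287D.Sc.St
import Vale.Agent.P287D.Sf.Kl

/-!
# P287D, block SC: the ends on the surface of type S
-/

set_option linter.unusedVariables false

open Set

noncomputable section

namespace Vale.Agent.P287D.Sc

open Sf

variable {L : Type} [Field L] [Algebra ℂ L] {H h r Z z γ : BD L} {f : L} {μ : ℝ}

/-- the degree of the member `Z` -/
theorem Kd.deg (k : Kd h r Z z μ) (R : Rows L) (hh : h ∈ Car L) (hr : r ∈ Car L) (hγ : γ ∈ Car L) :
    IsB 1 Z ∧ I2 Z γ = μ * I2 h γ + I2 r γ - I2 (cn L 2) γ := by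
  have a := isB_smul μ (R.isb h hh)
  have b := isB_add a (R.isb r hr)
  refine ⟨R.isB_congr (isB_sub b R.cnb) k.prn, ?_⟩
  rw [R.congr_l (isB_sub b R.cnb) k.prn hγ, R.sub_l b R.cnb hγ, R.add_l a (R.isb r hr) hγ,
    R.smul_l _ (R.isb h hh) hγ]

theorem Kd.cn_le (k : Kd h r Z z μ) (R : Rows L) (hh : Smp h) (hr : r ∈ Car L) (hγ : Nn γ)
    (d : Det h γ) (e : I2 r γ = 0) : I2 (cn L 2) γ ≤ I2 h γ := by
  have a := (k.deg R hh.car hr hγ.car).2
  have b : 0 ≤ I2 Z γ := hγ.I2_nonneg fun P u =>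
    k.pos P (on_iff.2 (d.pos (R.nn_smp hh) u.ne'))
  have c := R.eff_nn hh.eff (R.isb h hh.car) hγ
  nlinarith [k.le]

theorem Kd.adj (k : Kd h r Z z μ) (R : Rows L) (hh : Smp h) (hr : r ∈ Prn L) : Adj 1 h :=
  fun γ hγ d => by
    simpa using k.cn_le R hh (Prn_le_Car hr) hγ d (R.prn_l hr hγ.car)

/-- the coefficient of `H` -/
theorem Kd.lam (k : Kd h r Z z μ) (R : Rows L) (p : PS H f) (hh : Smp h) (hb : Big h)
    (hr : r ∈ Prn L) : I2 H H ≤ 3 * I2 h H := by
  have hN := R.nn_smp hh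
  have q := p.big_pos R hN hb
  by_cases c : ∃ D, 0 < dg H D ∧ dg h D = 0
  · obtain ⟨D, a, b⟩ := c
    simpa using p.lam_triv R hN hb (k.adj R hh hr) a b
  have d : Det h H := fun P e => (p.nn R).zero_of fun u => c ⟨P, u, e⟩
  by_cases c' : ∃ D, 0 < dg H D ∧ 1 / 2 ≤ Z D
  · obtain ⟨D, a, b⟩ := c'
    obtain ⟨i, e⟩ := k.deg R hh.car (Prn_le_Car hr) p.smp.car
    rw [R.prn_l hr p.smp.car, p.cn_det R p.smp.car (.refl H)] at e
    have u := R.le_I2 i p.smp.car (fun P => by
      rcases ((p.nn R).nn P).eq_or_lt with l | l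
      · rw [← l, mul_zero]
      · exact mul_nonneg (k.pos P (on_iff.2 (d.pos hN l.ne'))) l.le) D
    have v := p.le_dg R a
    nlinarith [k.le, p.pos]
  · have e : z - h ∈ Prn L := by
      have := sub_mem k.prz hr
      rwa [sub_sub, sub_add_cancel] at this
    have := p.le_of_int R hh.car e (fun P u => (k.int P (on_iff.2 (d.pos hN u.ne'))).resolve_right
      fun l => c' ⟨P, u, l⟩) q
    linarith

theorem kls_of (hR : ∀ (L : Type) [Field L] [Algebra ℂ L], FF L 2 → Rows L) : KLS := by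
  intro x
  obtain ⟨d₀, hd⟩ := exists_nat_gt (10 * x ^ 2 + 9 * |x| + 1)
  refine ⟨d₀, fun d L _ _ H f le s h r Z z μ hh hb k => ?_⟩
  have R := hR L s.ff
  have x0 := abs_nonneg x
  have x1 := le_abs_self x
  have d1 : (d₀ : ℝ) ≤ d := by exact_mod_cast le
  have d0 : 0 < d := by
    have : (0 : ℝ) < d := by nlinarith [sq_nonneg x]
    exact_mod_cast this
  have p := s.ps R d0
  have dg' := s.deg
  have hN := R.nn_smp hh
  refine ⟨fun hr => ⟨not_le.1 fun u => ?_, fun t t0 => not_le.1 fun u => ?_⟩,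
    fun F hF nF dF hr f0 r0 h0 => not_le.1 fun u => ?_⟩
  · have a := p.le_of_lam R hN (k.lam R p hh hb hr)
    have b := k.adj R hh hr h hN (.refl h)
    have c := p.cn_nn R hN
    have e := pow_le_pow_left₀ c (b.trans (by simpa using u)) 2
    nlinarith
  · have hC := R.nn_smp (smp_mx t)
    have t1 : I2 (mx t) h ≠ 0 := by
      rw [R.symm _ hC.car h hh.car]
      exact t0.ne'
    have a0 := p.le_of_int R hC.car (Z := mx t) (by simp) (fun P _ => int_mx t P)
      (p.pos_of R hC hh.car t1)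
    have a := p.klb' R hN hb (k.adj R hh hr) zero_le_one (k.lam R p hh hb hr) hC (c' := 1)
      (by simpa using a0) u
    have x2 : 0 ≤ x := t0.le.trans u
    have b := PS.le_sq p.pos.le x2 (z := 3 * x) (by positivity) (by linarith)
    nlinarith
  · have hC := R.nn_nef nF
    have t1 : I2 F h ≠ 0 := by
      rw [R.symm _ hC.car h hh.car]
      exact h0.ne'
    have a := p.pen R hC (Z := F) (by simp) (fun P _ => CarZ.int hF P) hh.car t1
    have b := k.cn_le R hh hr hC (R.det_dsc dF hh.car).2 r0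
    have e := pow_le_pow_left₀ (p.cn_nn R hC) (b.trans u) 2
    nlinarith

end Vale.Agent.P287D.Sc
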