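import Vale.Agent.P287D.Sc.S0
import Vale.Agent.P287D.Sc.Xl
import Vale.Agent.P287D.Api.Adj
import Vale.Agent.P287D.On.Fld
import Vale.Agent.P287D.Lc.Pg
import Vale.Agent.P287D.Cv.Fld
import Vale.Agent.P287D.Gf.Vp

/-!
# P287D, block SC: surface centres in links over a curve
-/

set_option linter.unusedVariables false

open Set

noncomputable section

namespace Vale.Agent.P287D.Sc.U1

variable {K : Type} [Field K] [Algebra ℂ K] {R H Γ : BD K}

/-- the degree of a fibre -/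
theorem fib (v3 : VOL3) : ∃ v : ℝ, ∀ (K : Type) [Field K] [Algebra ℂ K] (R H Γ : BD K) (c : ℝ),
    FF K 4 → Smp R → dim R = 1 → Term 3 H Γ → Dsc H R → H = c • R - Γ → ∀ p : Pl (fld R),
      I4 H H H (pb (inc _) p.δ) ≤ v := by
  obtain ⟨v, v3⟩ := v3
  refine ⟨v, fun K _ _ R H Γ c hK sR r1 t d e p => ?_⟩
  have hC : FF (fld R) 1 := r1 ▸ ff_fld hK R
  obtain ⟨K', _, _, φ, g⟩ := gen_ex _ _ hK _ (cld_fld R)
  have g : GFd 1 3 (fld R) φ := ⟨g, hK, hC⟩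
  have hK' := (g1b 1 3 K K' _ φ g).1
  obtain ⟨f, f0, ef⟩ := g4 1 3 K K' _ φ g
  obtain ⟨R₀, s0, b0, e0⟩ := fld_down hK sR
  obtain ⟨-, g2', -, g4'⟩ := Api.g6 1 3 K K' _ φ g R₀ s0 b0
  have pr : -(pb φ Γ + dv f) - pb φ H ∈ Prn K' := by
    rw [e, pb_sub, pb_smul, show -(pb φ Γ + dv f) - (c • pb φ R - pb φ Γ) =
      -(dv f + c • pb φ R) by abel]
    exact neg_mem (add_mem (dv_mem_Prn f) (Submodule.smul_mem _ c (pb_fld sR g)))
  have sH := g.ok.smp t.smp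
  have a := sH.ampOn_congr pr
  have ds : ∀ P Q, Lies φ P Q → dsc 3 (pb φ Γ + dv f) P = dsc 4 Γ Q := fun P Q l => by
    have k := ((g2 1 3 K K' _ φ g).2.1 P Q l).2.2.1
    simp only [dsc, ef, Pi.sub_apply, Pi.add_apply, k]
    ring
  have d0 : ∀ Q, On 3 H Q → dsc 4 Γ Q = 0 := fun Q o => sub_eq_zero.2 (t.hull.2 Q o).symm
  have k := v3 K' hK' (pb φ Γ + dv f) a.smp
    (((g2' H t.smp.car).2 ⟨0, by simpa using t.big⟩).congr pr)
    (fun P => by
      obtain ⟨Q, l⟩ := (g2 1 3 K K' _ φ g).1 P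
      rw [ds P Q l]
      by_cases o : On 3 H Q
      exacts [(d0 Q o).ge, (t.pos Q o).le])
    fun P o => by
      obtain ⟨Q, l⟩ := (g2 1 3 K K' _ φ g).1 P
      rw [ds P Q l]
      exact (d0 Q (((g4' H t.smp (d.congr (by simpa using neg_mem e0))).2.2 2 P Q rfl l).1
        ((Pr.on_iff res' hK' sH a).2 o))).le
  have n := Api.g5 1 3 K K' _ φ g (fun _ => H) ![p.δ] (fun _ _ => t.smp.car)
    (Fin.forall_fin_one.2 (CarZ.car (Cv.δ_carZ hC p)))
  rw [show I 1 _ ![p.δ] = 1 from Cv.I1_δ p, one_mul] at n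
  refine ((congrArg (I 4 K) (funext fun i => by fin_cases i <;> rfl)).trans n).trans_le
    ((In.hy.vol_mono hK' sH.nef a.nef (Eff.of_prn pr).psef).trans k)

theorem smp_δ (hK : FF K 1) (p : Pl K) : Smp p.δ :=
  Cv.smp_of_pos hK (CarZ.car (Cv.δ_carZ hK p)) (by rw [Cv.I1_δ]; exact one_pos)

/-- the fibres of a surface over a curve -/
theorem surf {L : Type} [Field L] [Algebra ℂ L] (hK : FF K 1) (hL : FF L 2) {j : K →+* L}
    (lj : ∀ a, j (algebraMap ℂ _ a) = algebraMap ℂ _ a) {b : BD L} (sb : Smp b) (bb : Big b)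
    (p : Pl K) : (∀ a ∈ Car K, I2 (pb j a) (pb j p.δ) = 0) ∧ 0 < I2 b (pb j p.δ) := by
  have ok := (Cst.of_lin lj).ok hK hL
  have sδ := smp_δ hK p
  have sF := ok.smp sδ
  refine ⟨fun a ha => Api.pb.low 1 2 K L j hK hL lj _ Finset.univ (by simp)
    (fun i _ => vec2 (p := (· ∈ Car L)) (ok.car ha) sF.car i) fun i _ =>
      vec2 (p := fun y => ∃ γ ∈ Car K, y = pb j γ) ⟨a, ha, rfl⟩ ⟨_, sδ.car, rfl⟩ i, ?_⟩
  rw [show I2 b (pb j p.δ) = I2 (pb j p.δ) b from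
    In.hy.swap (n := 0) hL sb.car sF.car fun i => i.elim0]
  refine ((fld'.nd 2 L hL _ b 1 sF sb.nef bb one_le_two).2
    (Nat.one_le_iff_ne_zero.2 fun q => ?_)).trans_eq
    (congrArg (I 2 L) (funext fun i => by fin_cases i <;> rfl))
  have bδ := (Cv.big_iff hK sδ.car).2 (by rw [Cv.I1_δ]; exact one_pos)
  have k := ok.mem_fld (f := p.t) bδ.eff (bδ.fld_eq.ge trivial)
  rw [(fld_eq_bot_iff hL).2 q] at k
  obtain ⟨a, ha⟩ := IntermediateField.mem_bot.1 k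
  have := p.ord_const a
  rw [j.injective ((lj a).trans ha), p.ord_t] at this
  exact one_ne_zero this

theorem sc1_of (hT : Mm.TRM) (hP : PRNV) (vd : VD) (nm : NUM) (kv : KLV) (ks : KLS) (v3 : VOL3) :
    SC1 := by
  obtain ⟨v, fb⟩ := fib v3
  obtain ⟨d₀, ks⟩ := ks v
  refine ⟨d₀, fun d hd S hS K _ _ hK _ R A Λ B Γ E l r1 i P e c2 s => ?_⟩
  obtain ⟨c, A', H, Y, ΓY, β, c0, aH, w, sL, ru, nh⟩ := vd K hK R A Λ B Γ E l i P e c2 d S hS s
  have h := In.hy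
  have x := w.toXc
  have sH := x.term.smp
  have rH := Dsc.refl sH
  have cH := sH.car
  have dR : Dsc H R := by simpa [smul_smul, c0.ne'] using w.desR.smul c⁻¹
  have fb := fb K R H (Γ i) c hK l.smp r1 x.term dR w.eq
  have hC : FF (fld R) 1 := r1 ▸ ff_fld hK R
  have ok := hK.ok_sub (fld R)
  obtain ⟨R₀, s0, b0, e0⟩ := fld_down hK l.smp
  have cδ := fun p => Cv.δ_carZ hC p
  have sδ := smp_δ hC
  have dF : ∀ p : Pl (fld R), Dsc H (pb (inc _) p.δ) := fun p => dR.trans ((ok.dsc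
    (Cv.dsc_of_pos hC s0.car ((Cv.big_iff hC s0.car).1 b0) (CarZ.car (cδ p)))).congr_left e0)
  have eR : res P (c • R) - c • res P (pb (inc _) R₀) ∈ Prn P.κ := by
    rw [res_smul hK P c l.smp.car, ← smul_sub]
    exact Submodule.smul_mem _ c (res_congr hK P (ok.car s0.car) e0)
  obtain ⟨b, sb, bb, db⟩ := x.exists_dn Api.ffs res' fld'
  obtain ⟨H₀, f₀, is⟩ := hS.isS _ sL
  obtain ⟨n1, n2⟩ := nm K _ _ _ _ _ _ _ _ w
  have fκ := x.fκ Api.ffs
  have fl := x.ff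
  rcases ok P with t | ⟨p, lp⟩
  · have hor : Hor (fld R) P := fun a ha => t ⟨a, ha⟩
    obtain ⟨p⟩ := Cv.ne_pl hC
    have okρ := fκ.ok (Lc.rh hor)
    have er : ∀ a ∈ Car (fld R), res P (pb (inc _) a) = pb (Lc.rh hor : fld R →+* P.κ) a :=
      Api.pb.hor 1 3 _ K (inc _) hC hK (fun _ => rfl) P _ t (Lc.rh_apply hor)
    have mem : ∀ a, Lc.rh hor a ∈ fld (res P H) := fun a =>
      (res_dsc hK P (dR.congr (by simpa using neg_mem e0))).fld_le
        (er _ s0.car ▸ okρ.mem_fld b0.eff (b0.fld_eq.ge trivial))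
    obtain ⟨j, lj, hj⟩ : ∃ j : fld R →+* fld (res P H),
        (∀ a, j (algebraMap ℂ _ a) = algebraMap ℂ _ a) ∧ (inc _).comp j = Lc.rh hor :=
      ⟨(Lc.rh hor : fld R →+* P.κ).codRestrict (fld (res P H)) mem,
        fun a => Subtype.ext ((Lc.rh hor).commutes a), rfl⟩
    have okj := (Cst.of_lin lj).ok hC fl
    have ej : ∀ a ∈ Car (fld R), pb (inc _) (pb j a) = res P (pb (inc _) a) := fun a ha => by
      rw [er a ha, ← (x.ok Api.ffs fld').pb_comp, hj]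
    have cr := okj.car (Submodule.smul_mem _ c s0.car)
    obtain ⟨Z, z, μ, kd⟩ := kv K _ _ _ _ _ _ _ _ w ru nh b _ sb bb db
      ⟨cr, by rw [pb_smul, pb_smul, ej _ s0.car]; exact eR⟩
    have sF := okj.smp (sδ p)
    have dn : Dn H P (pb (inc _) p.δ) (pb j p.δ) :=
      ⟨sF.car, by rw [ej _ (sδ p).car, sub_self]; exact zero_mem _⟩
    have dF0 : Dsc b (pb j p.δ) := by
      obtain ⟨u, u1, u2⟩ := ((fld'.des 3 _ fκ _ b (cld_fld _) sb bb).2 _).1
        ((res_dsc hK P (dF p)).congr_left (by simpa using neg_mem db.prn))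
      rw [← ej _ (sδ p).car, ← pb_sub] at u2
      exact u1.congr ((hP 3 _ fκ _ (cld_fld _)).2.1 _ u2)
    obtain ⟨low, q1⟩ := surf hC fl lj sb bb p
    have k := (ks d _ H₀ f₀ hd is b _ Z z μ sb bb kd).2 _ (okj.carZ (cδ p)) sF.nef dF0 cr
      (low _ (sδ p).car) (low _ (Submodule.smul_mem _ c s0.car)) q1
    exact (k.trans_le (n2 H H _ b _ rH n1 rH (dF p) sH.nef (ok.smp (sδ p)).nef db dn)).not_ge (fb p)
  · obtain ⟨ρ, hρ⟩ := Api.pb.rd _ K (inc _) P p lp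
    have k := (Api.pb.rst 0 3 _ K (inc _) hC hK (fun _ => rfl) P p ρ lp hρ R₀ s0.car).1
    rw [show pb ρ (res p R₀) = 0 from funext fun u =>
      pb_of_not (fun ⟨Q, _⟩ => Bm.no_pl (Gm.ff_κ p hC) Q) _, sub_zero] at k
    obtain ⟨Z, z, μ, kd⟩ := kv K _ _ _ _ _ _ _ _ w ru nh b 0 sb bb db ⟨zero_mem _, by
      simpa [pb_zero] using add_mem eR (Submodule.smul_mem _ c k)⟩
    have k1 := ((ks d _ H₀ f₀ hd is b 0 Z z μ sb bb kd).1 (zero_mem _)).1
    have cF := (dF p).car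
    have k2 := n2 _ H H b b (dF p) (x.eff_sub Api.neg hT (dF p) (pb_nonneg _ p.δ_nonneg)
      (fun Q _ => CarZ.int (ok.carZ (cδ p)) Q) (by
        rw [lp.pb, p.δ_self, mul_one]
        exact_mod_cast lp.e_pos)) rH rH sH.nef sH.nef db db
    have k3 : I4 (pb (inc _) p.δ) H H H = I4 H H H (pb (inc _) p.δ) := by
      refine Eq.trans ?_ (h.perm 4 K hK ![H, H, H, pb (inc _) p.δ] (Equiv.swap 0 3)
        (In.cons_mem cH (vec3 (p := (· ∈ Car K)) cH cH cF)))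
      exact congrArg (I 4 K) (funext fun i => by fin_cases i <;> rfl)
    exact (k1.trans_le (k2.trans_eq k3)).not_ge (fb p)

end Vale.Agent.P287D.Sc.U1
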