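import Vale.Agent.P287D.Sc.S0
import Vale.Agent.P287D.Sc.U1
import Vale.Agent.P287D.Sc.Sur
import Vale.Agent.P287D.Sc.Vd
import Vale.Agent.P287D.Sc.Xl
import Vale.Agent.P287D.Sc.Kls
import Vale.Agent.P287D.Sc.Xa
import Vale.Agent.P287D.Sm.Nh
import Vale.Agent.P287D.Api.Adj
import Vale.Agent.P287D.On.Fld
import Vale.Agent.P287D.Ru.Main
import Vale.Agent.P287D.Ad.All

/-!
# P287D, block SC: the glue
-/

namespace Vale.Agent.P287D.Sc

theorem ga : GA := ⟨Api.mod, res', Api.neg, fld', Api.ftn, Api.zar, Api.sep, Api.rho⟩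

theorem kls : KLS := kls_of Api.rows

theorem klv (xa : XA) (xq : XQ) : KLV :=
  klv_of Api.ffs Api.mod res' Api.neg fld' a1 a3 a6 rul prnv surj xa xq

theorem vd (xq : XQ) (nh : NH) : VD := vd_of Api.mod res' Api.neg (xl_of xq) nh

theorem sc0' (hT : Mm.TRM) (xa : XA) (xq : XQ) (nh : NH) (di : DICH) : SC0 :=
  sc0_of In.hy ga Api.ffs hT prnv (vd xq nh) (num In.hy Api.neg xa xq) (klv xa xq) kls di

theorem xq' (hT : Mm.TRM) : XQ := xq_of fld' hT (xa_of hT)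

theorem sc0 (hT : Mm.TRM) (di : DICH) : SC0 := sc0' hT (xa_of hT) (xq' hT) (Sm.nh_of hT) di

theorem sc1 (hT : Mm.TRM) (v3 : VOL3) : SC1 :=
  U1.sc1_of hT prnv (vd (xq' hT) (Sm.nh_of hT)) (num In.hy Api.neg (xa_of hT) (xq' hT))
    (klv (xa_of hT) (xq' hT)) kls v3

end Vale.Agent.P287D.Sc
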