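import Vale.Agent.P287D.Sc.Klv
import Vale.Agent.P287D.Sc.Num
import Vale.Agent.P287D.Ge.Set
import Vale.Agent.P287D.Ea.A
import Vale.Agent.P287D.Va.Alg
import Vale.Agent.P287D.Bm.Pl

/-!
# P287D, block SC: surface centres in links over a point
-/

set_option linter.unusedVariables false

open Set

noncomputable section

namespace Vale.Agent.P287D.Sc

variable {K : Type} [Field K] [Algebra ℂ K] {H Γ Y ΓY β M : BD K} {E : Pl K} {f : K}

theorem vol4 (a : BD K) : I4 a a a a = vol 4 a :=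
  congrArg (I 4 K) (funext fun i => by fin_cases i <;> rfl)

theorem res_pld {n : ℕ} (hR : RES) (hK : FF K (n + 1)) (h : f ∈ E.ring) :
    res E (pld f) = pld (E.rd f) := by
  classical
  have z : E.mz {1, f} = 0 := by
    have := pld_eq_zero.2 h
    rw [← mx_pld, mx_apply] at this
    exact_mod_cast this
  rw [← mx_pld, hR.sys n K hK, ← mx_pld, Pl.rs]
  refine congrArg mx (Finset.ext fun x => ?_)
  simp [z, Bm.rd_one]

theorem dim_pld {n : ℕ} (hK : FF K n) (h : ∀ c, algebraMap ℂ K c ≠ f) : 1 ≤ dim (pld f) :=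
  Nat.one_le_iff_ne_zero.2 fun e => by
    have k : f ∈ fld (pld f) := InF.mem ⟨1, one_pos, by simpa using Eff.zero⟩
    rw [(fld_eq_bot_iff hK).2 e] at k
    exact let ⟨c, hc⟩ := IntermediateField.mem_bot.1 k; h c hc

/-- an integral effective divisor which contains the centre -/
theorem Xc.eff_sub (x : Xc H Γ Y ΓY β E) (hN : NEG) (hT : Mm.TRM) (d : Dsc H M) (m : 0 ≤ M)
    (i : ∀ Q, On 3 H Q → ∃ z : ℤ, M Q = z) (p : 0 < M E) : Eff (M - β) := by
  obtain ⟨z, hz⟩ := hT 2 K x.fk H Γ M E x.term d i x.cd.ge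
  refine .of_nonneg (hN.nn 3 K x.fk Y _ x.xtr.term.smp x.xtr.term.big
    ((x.xtr.des.trans d).sub x.hull.1) fun Q hQ => ?_).1
  rw [Pi.sub_apply, x.hull.2 Q hQ]
  by_cases e : Q = E
  · rw [e, Pl.δ_self, hz]
    rw [hz] at p
    have : (1 : ℝ) ≤ z := by exact_mod_cast (show 0 < z by exact_mod_cast p)
    linarith
  · rw [Pl.δ_ne e, sub_zero]
    exact m Q

theorem sc0_of (h : In.Hy) (g : GA) (hF : FFS) (hT : Mm.TRM) (hP : PRNV) (vd : VD) (nm : NUM)
    (kv : KLV) (ks : KLS) (di : DICH) : SC0 := by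
  classical
  obtain ⟨v, di⟩ := di
  obtain ⟨d₀, ks⟩ := ks v
  refine ⟨d₀, fun d hd S hS K _ _ hK _ R A Λ B Γ E l r0 i P e c2 s => ?_⟩
  obtain ⟨c, A', H, Y, ΓY, β, c0, aH, w, sL, ru, nh⟩ := vd K hK R A Λ B Γ E l i P e c2 d S hS s
  have hR := g.res
  have hN := g.neg
  have x := w.toXc
  have m := l.mfs i
  have pR : R ∈ Prn K := Ea.prn_of_dim g.fld hK l.smp r0
  have pc : c • R ∈ Prn K := Submodule.smul_mem _ c pR
  have pB : B i ∈ Prn K := Ea.prn_of_dsc hK pR (l.ext i P e).1.dsc'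
  have pH : -Γ i - H ∈ Prn K := by
    rw [w.eq, show -Γ i - (c • R - Γ i) = -(c • R) by abel]
    exact neg_mem pc
  have sH := x.term.smp
  have bH := x.term.big
  have rH := Dsc.refl sH
  have on := (hN.iso 3 K hK _ _ m.term.smp sH aH).2.2.1
  have qH : QF 3 H := fun Q hQ =>
    let ⟨b, u, k⟩ := m.qf Q ((on Q).2 hQ)
    ⟨b, u, aH.dsc_iff.1 k.1, fun Q' h' => k.2 Q' ((on Q').2 h')⟩
  have r1 : rho H = 1 := by
    have z : Pic (B i) = ⊥ := Submodule.span_eq_bot.2 (by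
      rintro _ ⟨b, k, rfl⟩
      exact (Submodule.Quotient.mk_eq_zero _).2 (Ea.prn_of_dsc hK pB k))
    rw [← aH.rho_eq, m.rk, rho, z, finrank_bot]
  have aΓ := sH.ampOn_congr pH
  have vv : vol 4 (-Γ i) = vol 4 H :=
    le_antisymm (h.vol_mono hK aΓ.nef sH.nef (Eff.of_prn (by simpa using neg_mem pH)).psef)
      (h.vol_mono hK sH.nef aΓ.nef (Eff.of_prn pH).psef)
  obtain ⟨b, sb, bb, db⟩ := x.exists_dn hF hR g.fld
  obtain ⟨Z, z, μ, kd⟩ := kv K _ _ _ _ _ _ _ _ w ru nh b 0 sb bb db (.zero hR hK pc)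
  obtain ⟨H₀, f₀, is⟩ := hS.isS _ sL
  obtain ⟨k1, k2⟩ := (ks d _ H₀ f₀ hd is b 0 Z z μ sb bb kd).1 (zero_mem _)
  obtain ⟨n1, n2⟩ := nm K _ _ _ _ _ _ _ _ w
  have n3 : ∀ X, Dsc H X → Eff (X - β) → I2 b b ≤ I4 X H H H := fun X u k =>
    n2 X H H b b u k rH rH sH.nef sH.nef db db
  have n4 := n3 H rH n1
  rw [vol4] at n4
  rcases di K hK H (Γ i) ⟨⟨_, x.term, aΓ⟩, qH, r1⟩ x.term with k | ⟨f, t, tf, ef, k⟩
  · linarith
  rw [mx_pld] at ef
  rw [vv] at k
  obtain ⟨W, hW⟩ := Ge.hull_ex g hK sH bH qH (pld_car f)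
  obtain ⟨φ, φ1, φ2, -⟩ := Ge.exists_deg g hK sH bH r1
  have v0 := h.vol_pos hK sH.nef bH
  have mem : ∀ u : K, Sec (pld f) u → u ≠ 0 → 0 ≤ W + dv u := fun u su u0 => by
    simpa using Ge.hull_rep g hK sH bH hW (su.rep u0)
  have W0 : 0 ≤ W := by simpa using mem 1 (sec_one.2 (pld_nonneg f)) one_ne_zero
  have p0 := φ2 W hW.1 (.of_nonneg W0)
  have p1 : φ W ≤ t := by
    have dd := (rH.smul t).sub hW.1
    have e1 : Eff (t • H - W) := Ge.hull_eff g hK sH bH ((Hull.self (rH.smul t)).sub hW)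
      (ef.congr (by simpa [smul_sub] using Submodule.smul_mem _ t (neg_mem pH)))
    have e2 : Eff ((t - φ W) • H) := e1.congr (by simpa [sub_smul] using φ1 W hW.1)
    have := I4_nn h hK (Submodule.smul_mem _ _ sH.car) e2.psef sH.nef sH.nef sH.nef
    rw [show I4 ((t - φ W) • H) H H H = (t - φ W) * I4 H H H H from
      In.cons_smul (n := 3) _ H ![H, H, H], vol4] at this
    exact sub_nonneg.1 (nonneg_of_mul_nonneg_left this v0)
  have pv : φ W * vol 4 H ≤ v := (mul_le_mul_of_nonneg_right p1 v0.le).trans k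
  have big : ∀ u : K, Sec (pld f) u → u ≠ 0 → (W + dv u) P = 0 := fun u su u0 => by
    refine by_contra fun q => ?_
    have dM := hW.1.add (.dv sH u)
    have := n3 _ dM (x.eff_sub hN hT dM (mem u su u0) (fun Q hQ => ?_)
      ((mem u su u0 P).lt_of_ne' q))
    · rw [show I4 (W + dv u) H H H = I4 (φ W • H) H H H from h.cons_congr (n := 3) hK
        (h.isb 3 K hK _ (Submodule.smul_mem _ _ sH.car))
        (by rw [add_sub_right_comm]; exact add_mem (φ1 W hW.1) (dv_mem_Prn u))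
        (vec3 (p := (· ∈ Car K)) sH.car sH.car sH.car),
        show I4 (φ W • H) H H H = φ W * I4 H H H H from In.cons_smul (n := 3) _ H ![H, H, H],
        vol4] at this
      linarith
    · obtain ⟨j, hj⟩ := CarZ.int (pld_carZ f) Q
      exact ⟨j + Q.ord u, by rw [Pi.add_apply, hW.2 Q hQ, hj, dv_apply, Int.cast_add]⟩
  have WP : W P = 0 := by simpa using big 1 (sec_one.2 (pld_nonneg f)) one_ne_zero
  have ne : ∀ a : ℂ, f - algebraMap ℂ K a ≠ 0 := fun a q =>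
    tf (sub_eq_zero.1 q ▸ isAlgebraic_algebraMap a)
  have od : ∀ a : ℂ, P.ord (f - algebraMap ℂ K a) = 0 := fun a => by
    have := big _ ((sec_pld f).add ((sec_one.2 (pld_nonneg f)).smul (-a)))
      (by simpa [Algebra.smul_def, ← sub_eq_add_neg] using ne a)
    rw [Pi.add_apply, WP, zero_add, dv_apply] at this
    simpa [Algebra.smul_def, ← sub_eq_add_neg] using this
  have le : pld f ≤ W := pld_le W0 (.inr (add_comm W _ ▸ mem f (sec_pld f) (by simpa using ne 0)))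
  have fP : f ∈ P.ring := pld_eq_zero.1 (le_antisymm (WP ▸ le P) (pld_nonneg f P))
  have nc : ∀ a, algebraMap ℂ P.κ a ≠ P.rd f := fun a q => by
    have := (Bm.rd_zero_iff P (sub_mem fP (P.con a))).1
      (by rw [Ae.rd_sub fP (P.con a), Bm.rd_const, q, sub_self])
    rw [od a] at this
    exact this.elim (ne a) (lt_irrefl _)
  have cW := hW.1.car
  have e1 : Eff (φ W • res P H - pld (P.rd f)) := by
    have q := hR.nn 3 K hK P _ (sub_mem cW (pld_car f)) (sub_nonneg.2 le)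
      (by rw [Pi.sub_apply, WP, pld_eq_zero.2 fP, sub_self])
    have q' := res_prn (E := P) hR hK (φ1 W hW.1)
    rw [Ae.res_sub hR hK cW (Submodule.smul_mem _ _ sH.car), hR.smul 3 K hK P _ _ sH.car] at q'
    rw [Ae.res_sub hR hK cW (pld_car f), res_pld hR hK fP] at q
    exact (Eff.of_nonneg q).congr (by simpa using neg_mem q')
  have p2 : 0 < φ W + 1 := by linarith
  have fL : P.rd f ∈ fld (res P H) := InF.mem ⟨_, inv_pos.2 p2, .of_smul p2 (by
    have := e1.add (Ae.res_smp (P := P) hR hK sH).eff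
    rwa [smul_sub, smul_inv_smul₀ p2.ne', add_smul, one_smul, add_sub_right_comm])⟩
  have fl := x.fl hF g.fld
  have e2 : Eff (φ W • b - pld ⟨_, fL⟩) := (hP 3 P.κ (x.fκ hF) _ (cld_fld _)).2.2 _ (by
    rw [pb_sub, pb_smul, (x.ok hF g.fld).pb_pld]
    exact e1.congr (by simpa [smul_sub] using Submodule.smul_mem _ (φ W) (neg_mem db.prn)))
  have cp := pld_car (⟨_, fL⟩ : fld (res P H))
  have sw : I2 b (pld ⟨_, fL⟩) = I2 (pld ⟨_, fL⟩) b :=
    h.swap (n := 0) fl sb.car cp fun i => i.elim0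
  have q1 : 0 < I2 (pld ⟨_, fL⟩) b := by
    have := (g.fld.nd 2 _ fl (pld ⟨_, fL⟩) b 1 (smp_pld _) sb.nef bb one_le_two).2
      (dim_pld fl fun a q => nc a (congrArg Subtype.val q))
    exact this.trans_eq (congrArg (I 2 _) (funext fun i => by fin_cases i <;> rfl))
  have q2 : I2 (pld ⟨_, fL⟩) b ≤ I2 (φ W • b) b := h.cons_mono (n := 1) fl (h.isb 1 _ fl _ cp)
    (h.isb 1 _ fl _ (Submodule.smul_mem _ _ sb.car)) e2.psef (Fin.forall_fin_one.2 sb.nef)
  rw [show I2 (φ W • b) b = φ W * I2 b b from In.cons_smul (n := 1) _ b ![b]] at q2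
  have q3 := k2 {1, ⟨_, fL⟩} (by rwa [mx_pld, sw])
  rw [mx_pld, sw] at q3
  nlinarith

end Vale.Agent.P287D.Sc
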