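import Vale.Agent.P287D.Sc.All
import Vale.Agent.P287D.Sc.Xa
import Vale.Agent.P287D.Cv.Fld

/-!
# P287D, block SC: surface centres in links over a curve
-/

set_option linter.unusedVariables false

open Set

noncomputable section

namespace Vale.Agent.P287D.Sc.T1

variable {K : Type} [Field K] [Algebra ℂ K] {H Γ R : BD K}

/-- the degree of the fibres -/
theorem fib {v : ℝ} (hv : ∀ (K : Type) [Field K] [Algebra ℂ K], FF K 3 → ∀ G : BD K, Smp (-G) →
      Big (-G) → 0 ≤ dsc 3 G → Bdy 2 (-G) G → vol 3 (-G) ≤ v) (hK : FF K 4) (t : Term 3 H Γ)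
    (sR : Smp R) (hM : FF (fld R) 1) {c : ℝ} (e : H = c • R - Γ) (d : Dsc H R) (p : Pl (fld R)) :
    I4 H H H (pb (inc _) p.δ) ≤ v := by
  obtain ⟨K', _, _, φ, g⟩ := g1 _ _ (cld_fld R) ⟨1, hM⟩
  have g : GFd 1 3 _ φ := ⟨g, hK, hM⟩
  obtain ⟨f, -, hf⟩ := g4 1 3 _ _ _ _ g
  obtain ⟨R₀, s0, b0, e0⟩ := fld_down hK sR
  have q : -(pb φ Γ + dv f) - pb φ H ∈ Prn K' := by
    rw [e, pb_sub, pb_smul, show -(pb φ Γ + dv f) - (c • pb φ R - pb φ Γ) =
      -(dv f + c • pb φ R) by abel]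
    exact neg_mem (add_mem (dv_mem_Prn f) (Submodule.smul_mem _ _ (pb_fld sR g)))
  have sH := g.ok.smp t.smp
  have dd : dsc 3 (pb φ Γ + dv f) = pb φ (dsc 4 Γ) := by
    rw [dsc, dsc, pb_sub, hf]; abel
  have k := hv K' g.ff _ (sH.congr q) ((Gx.big_pb g.ok g.gen t.big).congr q)
    (dd ▸ pb_nonneg _ (Ge.term_nn t))
    fun P o => by
      obtain ⟨Q, l⟩ := g.toGF.below g.ff P
      have o := (((Api.g6 1 3 _ _ _ _ g R₀ s0 b0).2.2.2 H t.smp
        (d.congr (by simpa using neg_mem e0))).2.2 2 P Q rfl l).1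
        ((Pr.on_iff res' g.ff sH (sH.ampOn_congr q)).2 o)
      rw [dd, g.toGF.pb_eq l, dsc, Pi.sub_apply, t.hull.2 Q o, sub_self]
  have b := Api.g5 1 3 _ _ _ _ g (fun _ => H) ![p.δ] (fun _ _ => t.smp.car)
    (Fin.forall_fin_one.2 (Cv.carZ_car (Cv.δ_carZ hM p)))
  rw [show I 1 _ ![p.δ] = 1 from Cv.I1_δ p, one_mul] at b
  have u : vol 3 (-(pb φ Γ + dv f)) = I 3 K' fun _ => pb φ H :=
    Pb.I_congr In.hy g.ff (fun _ => sH.car) fun _ => q
  rw [u, ← b] at k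
  exact (congrArg (I 4 K) (funext fun i => by fin_cases i <;> rfl)).trans_le k

theorem sc1_of (hT : Mm.TRM) (vd : VD) (nm : NUM) (kv : KLV) (ks : KLS) (v3 : VOL3) : SC1 := by
  obtain ⟨v, v3⟩ := v3
  obtain ⟨d₀, ks⟩ := ks v
  refine ⟨d₀, fun d hd S hS K _ _ hK _ R A Λ B Γ E l r1 i P e c2 s => ?_⟩
  obtain ⟨c, A', H, Y, ΓY, β, c0, aH, w, sL, ru, nh⟩ := vd K hK R A Λ B Γ E l i P e c2 d S hS s
  have x := w.toXc
  have sH := x.term.smp
  have rH := Dsc.refl sH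
  have hM : FF (fld R) 1 := r1 ▸ ff_fld hK R
  have dR : Dsc H R := w.desR.trans (l.smp.ampOn_smul c0).dsc'
  obtain ⟨R₀, s0, b0, e0⟩ := fld_down hK l.smp
  have cs : Cst (inc (fld R)) := Cst.of_lin fun _ => rfl
  have ok := cs.ok hM hK
  have d0 : Dsc H (pb (inc _) R₀) := dR.congr (by simpa using neg_mem e0)
  have zF := fun p : Pl (fld R) => Cv.δ_carZ hM p
  have cF := fun p => Cv.carZ_car (zF p)
  have sF := fun p : Pl (fld R) => Cv.smp_of_pos hM (cF p) (Cv.I1_δ p ▸ one_pos)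
  have dF := fun p => d0.trans
    (ok.dsc (Cv.dsc_of_pos hM s0.car ((Cv.big_iff hM s0.car).1 b0) (cF p)))
  have fb := fib v3 hK x.term l.smp hM w.eq dR
  obtain ⟨b, sb, bb, db⟩ := x.exists_dn Api.ffs res' fld'
  obtain ⟨H₀, f₀, is⟩ := hS.isS _ sL
  obtain ⟨n1, n2⟩ := nm K _ _ _ _ _ _ _ _ w
  have fκ := x.fκ Api.ffs
  have pR : res P R - res P (pb (inc _) R₀) ∈ Prn P.κ :=
    In.hy.res_sub hK P l.smp.car d0.car ▸ In.hy.res_prn hK P e0
  rcases ok P with h | ⟨p, h⟩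
  · have hρ := Gx.hr_apply h
    have okρ := Pb.hor_ok hρ cs hM hK
    have rs := fun γ a => cs.res_trv res' hM hK h hρ (β := γ) a
    have mem : ∀ a, Gx.hr h a ∈ fld (res P H) := fun a =>
      (rs _ s0.car ▸ In.hy.res_dsc hK P d0).fld_le (okρ.mem_fld s0.eff (b0.fld_eq ▸ trivial))
    let j : fld R →+* fld (res P H) := (Gx.hr h).codRestrict _ mem
    have jl : ∀ a, j (algebraMap ℂ _ a) = algebraMap ℂ _ a := fun a =>
      Subtype.ext ((hρ _).trans (Gx.rd_cst P a))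
    have fl := x.ff
    have okj := (Cst.of_lin jl).ok hM fl
    have cp : ∀ γ, pb (inc _) (pb j γ) = pb (Gx.hr h) γ := fun γ =>
      ((x.ok Api.ffs fld').pb_comp j γ).symm
    obtain ⟨p⟩ := Cv.ne_pl hM
    have k1 : Dn H P (pb (inc _) p.δ) (pb j p.δ) :=
      ⟨okj.car (cF p), by rw [cp, rs _ (cF p), sub_self]; exact zero_mem _⟩
    have k2 : Dn H P R (pb j R₀) := ⟨okj.car s0.car, by rwa [cp, ← rs _ s0.car]⟩
    have k3 := k2.smul res' hK l.smp.car c
    obtain ⟨Z, z, μ, kd⟩ := kv K _ _ _ _ _ _ _ _ w ru nh b _ sb bb db k3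
    have low : ∀ γ ∈ Car (fld R), I2 (pb j γ) (pb j p.δ) = 0 := fun γ a =>
      Api.pb.low 1 2 _ _ j hM fl jl _ Finset.univ (by simp)
        (fun i _ => vec2 (p := (· ∈ Car _)) (okj.car a) k1.car i)
        fun i _ => vec2 (p := fun y => ∃ γ ∈ Car (fld R), y = pb j γ) ⟨_, a, rfl⟩ ⟨_, cF p, rfl⟩ i
    have dd : Dsc b (pb j p.δ) := (pb_dsc_iff fκ (cld_fld _)).1
      (((In.hy.res_dsc hK P (dF p)).congr (by simpa using neg_mem k1.prn)).congr_left
        (by simpa using neg_mem db.prn))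
    have q1 : 0 < I2 b (pb j p.δ) := by
      have := (fld'.nd 2 _ fl _ b 1 (okj.smp (sF p)) sb.nef bb one_le_two).2
        (Nat.one_le_iff_ne_zero.2 fun z => by
          have m := okj.mem_fld (sF p).eff (f := p.t)
            (Cv.fld_top hM (cF p) (Cv.I1_δ p ▸ one_pos) ▸ trivial)
          rw [(fld_eq_bot_iff fl).2 z] at m
          obtain ⟨a, ha⟩ := IntermediateField.mem_bot.1 m
          have := p.ord_const a
          rw [j.injective ((jl a).trans ha), p.ord_t] at this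
          exact one_ne_zero this)
      exact this.trans_eq ((congrArg (I 2 _) (funext fun i => by fin_cases i <;> rfl)).trans
        (In.hy.swap (n := 0) fl k1.car sb.car fun i => i.elim0))
    have q2 := (ks d _ H₀ f₀ hd is b _ Z z μ sb bb kd).2 _ (okj.carZ (zF p)) (okj.nef (sF p).nef)
      dd k3.car (low _ (cF p)) (pb_smul j c R₀ ▸ low _ (Submodule.smul_mem _ c s0.car)) q1
    exact (q2.trans_le (n2 H H _ _ _ rH n1 rH (dF p) sH.nef (ok.nef (sF p).nef) db k1)).not_ge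
      (fb p)
  · have k2 : Dn H P R 0 := ⟨zero_mem _, by
      have a := (cs.res_lies res' hM hK h h.isRd s0.car).1
      have z : res p R₀ = 0 := funext fun Q =>
        let ⟨_, k⟩ := Pb.succ_of_pl (Gm.ff_κ p hM) Q; nomatch k
      rw [z, pb_zero, sub_zero] at a
      simpa [pb_zero] using add_mem pR a⟩
    have k3 := k2.smul res' hK l.smp.car c
    rw [smul_zero] at k3
    obtain ⟨Z, z, μ, kd⟩ := kv K _ _ _ _ _ _ _ _ w ru nh b _ sb bb db k3
    have q2 := ((ks d _ H₀ f₀ hd is b _ Z z μ sb bb kd).1 (zero_mem _)).1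
    have q3 := n2 _ H H b b (dF p) (x.eff_sub Api.neg hT (dF p) (pb_nonneg _ p.δ_nonneg)
      (fun Q _ => CarZ.int (ok.carZ (zF p)) Q)
      (by rw [h.pb, Pl.δ_self, mul_one]; exact_mod_cast h.e_pos)) rH rH sH.nef sH.nef db db
    have q4 := In.hy.perm 4 K hK ![H, H, H, pb (inc _) p.δ] (Equiv.swap 0 3)
      (In.cons_mem sH.car (vec3 (p := (· ∈ Car K)) sH.car sH.car (dF p).car))
    exact ((q2.trans_le q3).trans_eq ((congrArg (I 4 K)
      (funext fun i => by fin_cases i <;> rfl)).trans q4)).not_ge (fb p)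

theorem sc1 (hT : Mm.TRM) (nh : NH) (v3 : VOL3) : SC1 :=
  have xa := xa_of hT
  have xq := xq_of fld' hT xa
  sc1_of hT (vd xq nh) (num In.hy Api.neg xa xq) (klv xa xq) kls v3

end Vale.Agent.P287D.Sc.T1
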